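import Vale.Agent.P141.H576.MkZ
import Vale.Agent.P141.H80.LightCut
import Vale.Agent.P141.H205.HPart

/-!
# P141, line (A): the static inputs of `H609.tzX_lab` for the cut families

* `capS_time` : the cap at the time `k` on the squares of scale `k`;
* `cap_of`, `capR_of` : from `H205.CapS` to `Cap` and `CapR`;
* `cap_low1`, `capR_lowF`, `capR_lowW` : the caps of the cut families at the nodes;
* `lowW_sub` : the weighted cut is a `SubPath`;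
* `FamK.pB`, `FamK.oB` : paths and powers of the labels.
-/

namespace Vale.Agent.P141.H576

open Finset Matrix Vale.Agent.P075 Vale.Agent.P141.PL
open Vale.Agent.P141.H103 (un QW QK)
open Vale.Agent.P141.H205 (CapS capS_four capS_path lowF low1 ef FamK pwr_ef path_ef)
open Vale.Agent.P141.H80 (lowG lowW capS_lowG prW prW_tr prW_idem)
open Vale.Agent.P141.H338 (cu cu_sum cu_smul sum_cu_cu)
open Vale.Agent.P141.H958 (lbs CapR CapL pwr fl)
open Vale.Agent.P141.H736 (Path)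
open Vale.Agent.P141.PL.H804 (Cap)

noncomputable section

variable {κ : Type*} [Fintype κ]

/-- the cap at the time `k` on the squares of scale `k` -/
theorem capS_time {c : ℝ} {F : ℕ → ℤ → ℤ → κ → ℝ}
    (h : ∀ k n m, CapS c k k (F (k + 1)) n m) {k : ℕ} (hk : 1 ≤ k) (n m : ℤ) :
    CapS c k k (F k) n m := by
  obtain ⟨j, rfl⟩ : ∃ j, k = j + 1 := ⟨k - 1, by omega⟩
  exact capS_four fun n' _ m' _ => h j n' m'

/-- scalar blocks -/
theorem cap_of {τ : ℝ} {k : ℕ} {n m : ℤ} {A : ℤ → ℤ → ℝ} (h : CapS (τ ^ 2) k k (un A) n m) :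
    Cap k n m τ A := by
  intro u v
  have h1 := h v
  have e1 : ∑ x ∈ iv k n, ∑ l : Unit, (∑ y ∈ iv k m, v y * un A x y l) ^ 2 =
      ∑ x ∈ iv k n, (∑ y ∈ iv k m, v y * A x y) ^ 2 := by
    refine sum_congr rfl fun x _ => ?_
    simp [un]
  rw [e1] at h1
  have e2 : ∑ x ∈ iv k n, ∑ y ∈ iv k m, u x * v y * A x y =
      ∑ x ∈ iv k n, u x * ∑ y ∈ iv k m, v y * A x y := by
    refine sum_congr rfl fun x _ => ?_
    rw [mul_sum]
    exact sum_congr rfl fun y _ => by ring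
  rw [e2]
  refine (sum_mul_sq_le_sq_mul_sq _ _ _).trans ?_
  refine (mul_le_mul_of_nonneg_left h1 (sum_nonneg fun _ _ => sq_nonneg _)).trans (le_of_eq ?_)
  ring

variable {e : κ → ℤ} {L : ℕ}

/-- labelled blocks -/
theorem capR_of (he : Function.Injective e) (hm : ∀ i, e i ∈ lbs L) {τ : ℝ} {k : ℕ} {n m : ℤ}
    {b : ℤ → ℤ → κ → ℝ} (h : CapS (τ ^ 2) k k b n m) : CapR L k m n τ (ef e b) := by
  intro u v
  have h1 := h v
  set w : ℤ → κ → ℝ := fun x i => ∑ y ∈ iv k m, v y * b x y i with hw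
  have e0 : ∀ x l, ∑ y ∈ iv k m, v y * cu e (b x y) l = cu e (w x) l := by
    intro x l
    rw [hw]
    rw [cu_sum (iv k m) (fun y i => v y * b x y i) l]
    exact sum_congr rfl fun y _ => (cu_smul (v y) (b x y) l).symm
  have e1 : ∑ x ∈ iv k n, ∑ l ∈ lbs L, ∑ y ∈ iv k m, u l x * v y * ef e b l y x =
      ∑ p ∈ iv k n ×ˢ lbs L, u p.2 p.1 * cu e (w p.1) p.2 := by
    rw [sum_product]
    refine sum_congr rfl fun x _ => sum_congr rfl fun l _ => ?_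
    show ∑ y ∈ iv k m, u l x * v y * cu e (b x y) l = u l x * cu e (w x) l
    rw [← e0, mul_sum]
    exact sum_congr rfl fun y _ => by ring
  have e2 : ∑ p ∈ iv k n ×ˢ lbs L, cu e (w p.1) p.2 ^ 2 =
      ∑ x ∈ iv k n, ∑ l, (∑ y ∈ iv k m, v y * b x y l) ^ 2 := by
    rw [sum_product]
    refine sum_congr rfl fun x _ => ?_
    have h2 := sum_cu_cu he hm (w x) (w x)
    calc ∑ l ∈ lbs L, cu e (w x) l ^ 2 = ∑ l ∈ lbs L, cu e (w x) l * cu e (w x) l :=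
          sum_congr rfl fun l _ => sq _
      _ = w x ⬝ᵥ w x := h2
      _ = _ := by
        rw [dotProduct]
        exact sum_congr rfl fun i _ => (sq _).symm
  rw [e1]
  refine (sum_mul_sq_le_sq_mul_sq _ _ _).trans ?_
  rw [e2, sum_product]
  refine (mul_le_mul_of_nonneg_left h1 (sum_nonneg fun _ _ => sum_nonneg fun _ _ =>
    sq_nonneg _)).trans (le_of_eq ?_)
  ring

/-! ### The cut families -/

/-- the cap of `H205.low1` at a node -/
theorem cap_low1 {Q : ℕ → ℤ → ℤ → Prop} (hQ0 : ∀ n m, Q 0 n m) {τ : ℝ}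
    (A : ℕ → ℤ → ℤ → ℝ) {k : ℕ} (hk : 1 ≤ k) (n m : ℤ) : Cap k n m τ (low1 Q (τ ^ 2) A k) := by
  refine cap_of ?_
  rw [H205.un_low1]
  exact capS_time (fun k n m => capS_path (sq_nonneg τ) hQ0 k n m) hk n m

/-- the cap of `H205.lowF` at a node -/
theorem capR_lowF (he : Function.Injective e) (hm : ∀ i, e i ∈ lbs L) {Q : ℕ → ℤ → ℤ → Prop}
    (hQ0 : ∀ n m, Q 0 n m) {τ : ℝ} (F : ℕ → ℤ → ℤ → κ → ℝ) {k : ℕ} (hk : 1 ≤ k) (n m : ℤ) :
    CapR L k m n τ (ef e (lowF Q (τ ^ 2) F k)) :=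
  capR_of he hm (capS_time (fun k n m => capS_path (sq_nonneg τ) hQ0 k n m) hk n m)

variable [DecidableEq κ]

/-- the cap `c` of `H205.lowF` passes to the weighted cut -/
theorem capS_lowW {Q : ℕ → ℤ → ℤ → Prop} (hQ0 : ∀ n m, Q 0 n m)
    {K : ℤ → ℕ → ℤ → Matrix κ κ ℝ} {c cw : ℝ} (hc : 0 ≤ c) {F : ℕ → ℤ → ℤ → κ → ℝ}
    (h : ∀ k n m, Q k n m → CapS c k k (F (k + 1)) n m) (k : ℕ) (n m : ℤ) :
    CapS c k k (lowW Q K cw F (k + 1)) n m :=
  capS_lowG hc (prW_tr K cw F) (prW_idem K cw F) hQ0 h k n m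

/-- the cap of the weighted cut of `H205.lowF` at a node -/
theorem capR_lowW (he : Function.Injective e) (hm : ∀ i, e i ∈ lbs L) {Q : ℕ → ℤ → ℤ → Prop}
    (hQ0 : ∀ n m, Q 0 n m) {K : ℤ → ℕ → ℤ → Matrix κ κ ℝ} {τ cw : ℝ}
    (F : ℕ → ℤ → ℤ → κ → ℝ) {k : ℕ} (hk : 1 ≤ k) (n m : ℤ) :
    CapR L k m n τ (ef e (lowW Q K cw (lowF Q (τ ^ 2) F) k)) :=
  capR_of he hm (capS_time (fun k n m => capS_lowW hQ0 (sq_nonneg τ)
    (fun k n m _ => capS_path (sq_nonneg τ) hQ0 k n m) k n m) hk n m)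

/-- **the weighted cut is a cut path** -/
theorem lowW_sub (Q : ℕ → ℤ → ℤ → Prop) (K : ℤ → ℕ → ℤ → Matrix κ κ ℝ) (cw : ℝ)
    (F : ℕ → ℤ → ℤ → κ → ℝ) : SubPath Q F (lowW Q K cw F) :=
  ⟨H80.lowW_zero, fun _ _ _ _ _ hQ hx hy => H80.lowG_off hQ hx hy,
    fun k n m hQ _ hM => H80.own_lowG hQ (prW_tr K cw F k n m) (prW_idem K cw F k n m)
      (Subset.refl _) hM⟩

variable {l : ℝ} {N : ℕ} {G K : ℤ → ℕ → ℤ → Matrix κ κ ℝ} {R S T t₀ : ℤ}
  {A : ℤ → ℕ → ℤ → ℤ → ℝ} {b : ℤ → ℕ → ℤ → ℤ → κ → ℝ} {qA qB : ℕ → ℤ → ℤ → ℤ → Prop}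
  {gA gB cP : ℝ}

/-- **The gap family of the two cuts** (`H401` letters: `cA`, `cb`). -/
theorem GapFam.cuts (f : GapFam l N G K R S T t₀ A b qA qB gA gB cP)
    (qA0 : ∀ i n m, qA 0 i n m) (qB0 : ∀ i n m, qB 0 i n m) (cA cB cw : ℝ)
    (K' : ℤ → ℕ → ℤ → Matrix κ κ ℝ) :
    GapFam l N G K R S T t₀
      (fun x₀ => low1 (fun k n m => qA k (ix k x₀) n m) cA (A x₀))
      (fun x₀ => lowW (fun k n m => qB k (ix k x₀) n m) K' cw
        (lowF (fun k n m => qB k (ix k x₀) n m) cB (b x₀))) qA qB gA gB cP :=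
  f.low qA0 qB0 cA cB fun _ => lowW_sub _ _ _ _

/-! ### Paths and powers of the labels -/

omit [DecidableEq κ] in
theorem FamK.pB {X : Finset ℤ} {Q : ℤ → ℕ → ℤ → ℤ → Prop} {F : ℤ → ℕ → ℤ → ℤ → κ → ℝ}
    {N : ℕ} {R S : ℤ} {cP G D : ℝ} (h : FamK N R S X Q F cP G D) :
    ∀ i ∈ X, ∀ l ∈ lbs L, Path N S R (fl (Q i)) (fun k => ef e (F i k) l) :=
  fun i hi l _ => path_ef (h.path i hi) l

omit [DecidableEq κ] in
theorem FamK.oB (he : Function.Injective e) (hm : ∀ i, e i ∈ lbs L) {X : Finset ℤ}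
    {Q : ℤ → ℕ → ℤ → ℤ → Prop} {F : ℤ → ℕ → ℤ → ℤ → κ → ℝ} {N : ℕ} {R S : ℤ} {cP G D : ℝ}
    (h : FamK N R S X Q F cP G D) :
    ∑ i ∈ X, ∑ l ∈ lbs L, pwr N S R (fl (Q i)) (fun k => ef e (F i k) l) ≤ D := by
  refine le_trans (le_of_eq ?_) h.pow
  exact sum_congr rfl fun i _ => pwr_ef he hm N R S (Q i) (F i)

end

end Vale.Agent.P141.H576
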