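import Vale.Agent.P141.H576.GapI
import Vale.Agent.P141.H338.CapM
import Vale.Agent.P141.H305.TopM

/-!
# P141, line (A), [T5]: the gap family of class data (`H305.ClsM`) and its numbers

`Λ = t ^ (-d)`, `l = t ^ (2 - e₀) √s r ^ e₀`.

* `mass_sq` : local masses of `u` on squares with alive parent;
* `col_sq` : all columns of `u` on squares with alive parent, from the activity;
* `col_num` : the columns are at most `8 L t ^ (a - 2 - d) √s r⁻¹`;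
* `gapN` : `GapFam` for the killed inputs, `gA = CA t ^ (2 - 2c - 2d) s ^ (3/2)`,
  `gB = l⁻¹ CB t ^ (2 + e₀ / 4) s ^ (3/2) r ^ (- e₀ / 4)`;
* `gapN_w` : the hypothesis `hw` of region 1 in one monomial.
-/

namespace Vale.Agent.P141.H576

open Finset Matrix Vale.Agent.P141.PL
open Vale.Agent.P141.H103 (PA QK gauge_le)
open Vale.Agent.P141.H588G (S2 cnt)
open Vale.Agent.P141.PL.H315 (A2 avg avg_nonneg Tri)
open Vale.Agent.P141.H48 (A4 US ES BSl Mo4 sst ind)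
open Vale.Agent.P141.H550 (avg_congr avg_mono avg_prod avg_comm avg_mul_left)
open Vale.Agent.P141.H769 (corner not_sst_le iv_pt ptiv_congr ix_two_pow_mul)
open Vale.Agent.P141.H677 (KT GT tr_T fA fb kF)
open Vale.Agent.P141.H338 (endV numT)
open Vale.Agent.P141.H305 (Cls ClsM kapM)

noncomputable section

open scoped Classical

/-! ### Masses and columns -/

section cls

variable {ι : Type*} [Fintype ι] {K : ℕ} {x : Pt} {s r P κ : ℝ} {U : Tri} {g : ℤ → ℤ → ℝ}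
  {u v : ℤ → ℤ → ι → ℝ}

/-- points of a cell inside the root -/
theorem root_pt {k : ℕ} (hk : k ≤ K) {p q z : ℤ} (hp : p ∈ iv (K - k) (ix K q))
    (hz : z ∈ iv k p) : ix K z = ix K q := by
  rw [mem_iv] at hp hz
  rw [← hp, ← hz, ix_ix, Nat.add_sub_cancel' hk]

theorem root_mem {k : ℕ} (hk : k ≤ K) {p q z : ℤ} (hp : p ∈ iv (K - k) (ix K q))
    (hz : z ∈ iv k p) : z ∈ PL.H315.iv K q := by
  rw [iv_pt, mem_iv]
  exact root_pt hk hp hz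

/-- `A2` on a cell in iterated averages -/
theorem A2_iv (a : ℤ × ℤ → ℝ) (k : ℕ) (p q : ℤ) :
    A2 k a (2 ^ k * p) (2 ^ k * q) = avg (iv k p) fun z => avg (iv k q) fun y => a (z, y) ^ 2 := by
  unfold A2
  rw [iv_pt, iv_pt, ix_two_pow_mul k p, ix_two_pow_mul k q, avg_prod]

/-- the mass of the majorant on a square with alive parent -/
theorem U_sq (C : Cls K x s r P U g u v) {Λ : ℝ} (hΛ : 0 ≤ Λ) {k : ℕ} (hk : k < K) {p q : ℤ}
    (hp : p ∈ iv (K - k) (ix K x.1)) (hq : q ∈ iv (K - k) (ix K x.2.1))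
    (h : ¬ sst Λ U.1 K (k + 1) (2 ^ k * p) (2 ^ k * q)) :
    (avg (iv k p) fun z => avg (iv k q) fun y => U.1 (z, y) ^ 2) ≤ 4 * (Λ * s) := by
  rw [← A2_iv]
  refine (not_sst_le hk h).1.trans ?_
  have e : A2 K U.1 (2 ^ k * p) (2 ^ k * q) = A2 K U.1 x.1 x.2.1 := by
    unfold A2
    rw [ptiv_congr (root_pt hk.le hp (z := 2 ^ k * p) (by rw [mem_iv, ix_two_pow_mul])),
      ptiv_congr (root_pt hk.le hq (z := 2 ^ k * q) (by rw [mem_iv, ix_two_pow_mul]))]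
  rw [e]
  have := mul_le_mul_of_nonneg_left C.U_u2 hΛ
  linarith

/-- **Local masses.** -/
theorem mass_sq (C : Cls K x s r P U g u v) {Λ : ℝ} (hΛ : 0 ≤ Λ) {k : ℕ} (hk : k < K) {p q : ℤ}
    (hp : p ∈ iv (K - k) (ix K x.1)) (hq : q ∈ iv (K - k) (ix K x.2.1))
    (h : ¬ sst Λ U.1 K (k + 1) (2 ^ k * p) (2 ^ k * q)) :
    (avg (iv k q) fun y => avg (iv k p) fun z => u z y ⬝ᵥ u z y) ≤ 4 * (Λ * s) := by
  rw [avg_comm]
  refine le_trans (avg_mono fun z hz => avg_mono fun y hy => ?_) (U_sq C hΛ hk hp hq h)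
  exact C.u_le z (root_mem hk.le hp hz) y (root_mem hk.le hq hy)

/-- **Columns.** -/
theorem col_sq (C : ClsM K x s r P κ U g u v) (hκ : 0 < κ) {Λ : ℝ} (hΛ : 0 ≤ Λ) {k : ℕ}
    (hk : k < K) {p q : ℤ} (hp : p ∈ iv (K - k) (ix K x.1))
    (hq : q ∈ iv (K - k) (ix K x.2.1)) (h : ¬ sst Λ U.1 K (k + 1) (2 ^ k * p) (2 ^ k * q)) {y : ℤ}
    (hy : y ∈ iv k q) :
    (avg (iv k p) fun z => u z y ⬝ᵥ u z y) ≤ κ⁻¹ * (4 * (Λ * s)) := by
  refine le_trans ?_ (mul_le_mul_of_nonneg_left (U_sq C.toCls hΛ hk hp hq h)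
    (inv_nonneg.2 hκ.le))
  rw [← avg_mul_left]
  refine avg_mono fun z hz => ?_
  have hz' := root_mem hk.le hp hz
  have hy' := root_mem hk.le hq hy
  have h0 : 0 ≤ avg (iv k q) fun y => U.1 (z, y) ^ 2 := avg_nonneg fun _ _ => sq_nonneg _
  rcases C.act z hz' with h1 | h1
  · have h2 : κ ≤ avg (iv k q) fun y => U.1 (z, y) ^ 2 := by
      have h3 : (avg (iv k q) fun _ => κ) ≤ avg (iv k q) fun y => U.1 (z, y) ^ 2 :=
        avg_mono fun y hy => h1 y (root_mem hk.le hq hy)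
      rwa [H550.avg_const (H206.iv_ne k q)] at h3
    have h4 : u z y ⬝ᵥ u z y ≤ 1 := by
      refine (C.u_le z hz' y hy').trans ?_
      have h5 := C.U_u z hz' y hy'
      exact pow_le_one₀ h5.1 h5.2
    calc u z y ⬝ᵥ u z y ≤ 1 := h4
      _ = κ⁻¹ * κ := (inv_mul_cancel₀ hκ.ne').symm
      _ ≤ _ := mul_le_mul_of_nonneg_left h2 (inv_nonneg.2 hκ.le)
  · have h3 : u z y ⬝ᵥ u z y = 0 := by
      rw [h1.1 y]
      exact zero_dotProduct 0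
    rw [h3]
    exact mul_nonneg (inv_nonneg.2 hκ.le) h0

theorem kapM_pos {L t a : ℝ} (hL : 1 ≤ L) (ht : 0 < t) (hs : 0 < s) (hr : 1 ≤ r) :
    0 < kapM L t a s r := by
  unfold kapM
  have : 0 < t ^ (2 - a) * √s * r := by
    have := Real.sqrt_pos.2 hs
    have : 0 < t ^ (2 - a) := Real.rpow_pos_of_pos ht _
    positivity
  have h2 : 0 < min 1 (t ^ (2 - a) * √s * r) := lt_min one_pos this
  have : 0 < L := by linarith
  positivity

/-- **The number of the columns.** -/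
theorem colN {L t a d : ℝ} (ha : a ≤ 1) (hd : 0 ≤ d) (hL : 1 ≤ L) (ht : 0 < t) (ht1 : t ≤ 1)
    (hs : 0 < s) (hr : 1 ≤ r) (C : ClsM K x s r P (kapM L t a s r) U g u v) {k : ℕ}
    (hk : k < K) {p q : ℤ} (hp : p ∈ iv (K - k) (ix K x.1))
    (hq : q ∈ iv (K - k) (ix K x.2.1))
    (h : ¬ sst (t ^ (-d)) U.1 K (k + 1) (2 ^ k * p) (2 ^ k * q)) {y : ℤ} (hy : y ∈ iv k q) :
    (avg (iv k p) fun z => u z y ⬝ᵥ u z y) ≤ 8 * L * (t ^ (a - 2 - d) * √s) * r⁻¹ := by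
  have hΛ : 0 ≤ t ^ (-d) := Real.rpow_nonneg ht.le _
  have hκ := kapM_pos (a := a) hL ht hs hr
  have h1 := col_sq C hκ hΛ hk hp hq h hy
  have hr0 : 0 < r := by linarith
  have hS : 0 < √s := Real.sqrt_pos.2 hs
  have hSS : √s * √s = s := Real.mul_self_sqrt hs.le
  have ta : 0 < t ^ (2 - a) := Real.rpow_pos_of_pos ht _
  have tb : 1 ≤ t ^ (a - 2) := Real.one_le_rpow_of_pos_of_le_one_of_nonpos ht ht1 (by linarith)
  have td : 1 ≤ t ^ (-d) := Real.one_le_rpow_of_pos_of_le_one_of_nonpos ht ht1 (by linarith)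
  have tab : t ^ (2 - a) * t ^ (a - 2) = 1 := by
    rw [← Real.rpow_add ht]
    simp
  have tdd : t ^ (a - 2 - d) = t ^ (a - 2) * t ^ (-d) := by
    rw [← Real.rpow_add ht]
    congr 1
  -- the trivial bound
  have h0 : (avg (iv k p) fun z => u z y ⬝ᵥ u z y) ≤ 1 := by
    have h3 : (avg (iv k p) fun z => u z y ⬝ᵥ u z y) ≤ avg (iv k p) fun _ => (1 : ℝ) := by
      refine avg_mono fun z hz => ?_
      refine (C.u_le z (root_mem hk.le hp hz) y (root_mem hk.le hq hy)).trans ?_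
      have h5 := C.U_u z (root_mem hk.le hp hz) y (root_mem hk.le hq hy)
      exact pow_le_one₀ h5.1 h5.2
    rwa [H550.avg_const (H206.iv_ne k p)] at h3
  by_cases hc : r * √s ≤ 2 * t ^ (a - 2)
  · refine h1.trans ?_
    have hm : s ≤ 2 * (t ^ (a - 2) * √s * r⁻¹) * min 1 (t ^ (2 - a) * √s * r) := by
      rcases min_choice 1 (t ^ (2 - a) * √s * r) with hh | hh <;> rw [hh]
      · have : s * r ≤ 2 * t ^ (a - 2) * √s := by nlinarith
        rw [mul_one, ← mul_assoc, ← div_eq_mul_inv, le_div_iff₀ hr0]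
        linarith
      · have : 2 * (t ^ (a - 2) * √s * r⁻¹) * (t ^ (2 - a) * √s * r) = 2 * s := by
          calc _ = 2 * ((t ^ (2 - a) * t ^ (a - 2)) * (√s * √s) * (r⁻¹ * r)) := by ring
            _ = _ := by rw [tab, hSS, inv_mul_cancel₀ hr0.ne']; ring
        rw [this]
        linarith
    have hmin : 0 < min 1 (t ^ (2 - a) * √s * r) := lt_min one_pos (by positivity)
    have hL0 : 0 < L := by linarith
    unfold kapM
    rw [mul_inv, inv_inv]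
    calc L * (min 1 (t ^ (2 - a) * √s * r))⁻¹ * (4 * (t ^ (-d) * s))
        ≤ L * (min 1 (t ^ (2 - a) * √s * r))⁻¹ * (4 * (t ^ (-d) *
          (2 * (t ^ (a - 2) * √s * r⁻¹) * min 1 (t ^ (2 - a) * √s * r)))) := by gcongr
      _ = 8 * L * ((t ^ (a - 2) * t ^ (-d)) * √s) * r⁻¹ *
          ((min 1 (t ^ (2 - a) * √s * r))⁻¹ * min 1 (t ^ (2 - a) * √s * r)) := by ring
      _ = _ := by rw [inv_mul_cancel₀ hmin.ne', mul_one, tdd]
  · push Not at hc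
    have hr1 : r = 1 := by
      rcases C.r_le with h6 | h6
      · exact h6
      · exact absurd h6 (not_le.2 (lt_of_le_of_lt (by linarith) hc))
    subst hr1
    refine h0.trans ?_
    rw [one_mul] at hc
    have h7 : 1 ≤ √s := by linarith
    have h8 : 1 ≤ t ^ (a - 2 - d) := by
      rw [tdd]
      exact one_le_mul_of_one_le_of_one_le tb td
    have h9 : 1 ≤ t ^ (a - 2 - d) * √s := one_le_mul_of_one_le_of_one_le h8 h7
    rw [inv_one, mul_one]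
    nlinarith

/-- the energies of the gauge on the root -/
theorem gauge_cls (C : Cls K x s r P U g u v) (hs : 0 ≤ s) :
    A2 K U.2.2 x.2.1 x.2.2 * √(A4 K U.2.2 x.2.1 x.2.2) ≤ s * √s := by
  refine gauge_le hs C.U_g2 (le_trans ?_ C.U_g2)
  unfold A4 A2
  refine avg_mono fun w hw => ?_
  rw [mem_product] at hw
  have h1 := C.g_le w.1 hw.1 w.2 hw.2
  rw [C.U_g w]
  have h2 : g w.1 w.2 ^ 2 ≤ 1 := by
    rw [← sq_abs]
    exact pow_le_one₀ (abs_nonneg _) h1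
  have h3 : 0 ≤ g w.1 w.2 ^ 2 := sq_nonneg _
  nlinarith

end cls

/-! ### The instance -/

/-- **The gap family of class data.** -/
theorem gapN {a e₀ c d Kt e cP L : ℝ} (ha : a ≤ 1) (he0 : 0 < e₀) (he0' : e₀ ≤ a / 10)
    (hc : c ≤ e₀ / 100) (hd0 : 0 < d) (hd : d ≤ e₀ / 100) (hKt : 0 < Kt) (he : 1 ≤ e)
    (hcP : 0 ≤ cP) (hL : 1 ≤ L) :
    ∃ CA CB : ℝ, 0 < CA ∧ 0 < CB ∧ ∀ t : ℝ, 0 < t → t ≤ 1 → ∀ (n : ℕ) (F1 F3 : ℕ → Pt → ℝ)
      (Q1 Q3 : ℕ → Pt → Prop), US n (Kt * t ^ (1 - c)) e cP F1 → BSl n e cP F1 Q1 →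
      US n (Kt * t ^ (1 - c)) e cP F3 → BSl n e cP F3 Q3 → ∀ K ≤ n, ∀ (x : Pt) (ι : Type)
      [Fintype ι] [DecidableEq ι] (s r P : ℝ) (U : Tri) (g : ℤ → ℤ → ℝ) (u v : ℤ → ℤ → ι → ℝ),
      0 < s → 1 ≤ r → ClsM K x s r P (kapM L t a s r) U g u v → ∀ t₀ : ℤ,
      GapFam (t ^ (2 - e₀) * √s * r ^ e₀) K (fun x1 => GT u x1)
        (KT (t ^ (2 - e₀) * √s * r ^ e₀) u) (ix K x.2.2) (ix K x.2.1) (ix K x.1) t₀
        (fA (fun p => g p.1 p.2) (kF (t ^ (-d)) U.2.2 K F1)) (fb u (kF (t ^ (-d)) U.1 K F3))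
        (fun k i z y => QD (fun k x y => sst (t ^ (-d)) U.2.2 K k x y) Q1 k i y z)
        (QD (fun k x y => sst (t ^ (-d)) U.1 K k x y) Q3)
        (CA * (t ^ (2 - 2 * c - 2 * d) * s ^ (3 / 2 : ℝ)))
        ((t ^ (2 - e₀) * √s * r ^ e₀)⁻¹ *
          (CB * (t ^ (2 + e₀ / 4) * s ^ (3 / 2 : ℝ) * r ^ (-(e₀ / 4))))) (cP + 2) := by
  obtain ⟨CB, hCB, H⟩ := numT (a := a) (e₀ := e₀) (c := c) (d := d) (Kt := Kt) (e := e) (Cm := 4)
    (CR := 8 * L) ha he0 he0' hKt he (by norm_num) (by linarith) hc hd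
  refine ⟨1920000 * Kt ^ 2 * e + 1, CB + 1, by positivity, by positivity, ?_⟩
  intro t ht ht1 n F1 F3 Q1 Q3 hF1 hB1 hF3 hB3 K hK x ι _ _ s r P U g u v hs hr C t₀
  obtain ⟨J, HJ⟩ := H t s r ht ht1 hs hr
  have hr0 : 0 < r := by linarith
  have hS : 0 < √s := Real.sqrt_pos.2 hs
  have hl : 0 < t ^ (2 - e₀) * √s * r ^ e₀ := by
    have h1 : 0 < t ^ (2 - e₀) := Real.rpow_pos_of_pos ht _
    have h2 : 0 < r ^ e₀ := Real.rpow_pos_of_pos hr0 _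
    positivity
  have hW : 0 < t ^ (2 - 2 * e₀) * √s * r ^ (2 * e₀) := by
    have h1 : 0 < t ^ (2 - 2 * e₀) := Real.rpow_pos_of_pos ht _
    have h2 : 0 < r ^ (2 * e₀) := Real.rpow_pos_of_pos hr0 _
    positivity
  have hΛ1 : 1 ≤ t ^ (-d) := Real.one_le_rpow_of_pos_of_le_one_of_nonpos ht ht1 (by linarith)
  have hU22 : U.2.2 = fun p => g p.1 p.2 := funext C.U_g
  have hR0 : 0 ≤ 8 * L * (t ^ (a - 2 - d) * √s) * r⁻¹ := by
    have h1 : 0 < t ^ (a - 2 - d) := Real.rpow_pos_of_pos ht _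
    have : 0 < L := by linarith
    positivity
  have hm0 : 0 ≤ 4 * (t ^ (-d) * s) := by positivity
  have hend := HJ (4 * (t ^ (-d) * s)) (8 * L * (t ^ (a - 2 - d) * √s) * r⁻¹) hm0 hR0 le_rfl
    le_rfl
  have hM4 : Mo4 n (240000 * ((Kt * t ^ (1 - c)) ^ 2 * e)) F1 :=
    H206.mo4_of_un hF1.1 (by linarith) hB1 hF1.2.2.1
  have hpos3 : 0 < s ^ (3 / 2 : ℝ) := Real.rpow_pos_of_pos hs _
  have hposA : 0 < t ^ (2 - 2 * c - 2 * d) := Real.rpow_pos_of_pos ht _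
  have hposB : 0 < t ^ (2 + e₀ / 4) * s ^ (3 / 2 : ℝ) * r ^ (-(e₀ / 4)) := by
    have h1 : 0 < t ^ (2 + e₀ / 4) := Real.rpow_pos_of_pos ht _
    have h2 : 0 < r ^ (-(e₀ / 4)) := Real.rpow_pos_of_pos hr0 _
    positivity
  have hS3 : s * √s = s ^ (3 / 2 : ℝ) := by
    rw [Real.sqrt_eq_rpow]
    nth_rewrite 1 [← Real.rpow_one s]
    rw [← Real.rpow_add hs]
    norm_num
  rw [← kD_sst (t ^ (-d)) U.1 K F3, hU22]
  refine gapI (M := 240000 * ((Kt * t ^ (1 - c)) ^ 2 * e)) (J := J)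
    (W := t ^ (2 - 2 * e₀) * √s * r ^ (2 * e₀))
    (R := 8 * L * (t ^ (a - 2 - d) * √s) * r⁻¹) (m := 4 * (t ^ (-d) * s))
    (d := Kt * t ^ (1 - c)) (X := x.2.1) (Y := x.2.2) hK hl hΛ1 (by positivity)
    hcP hB1 hM4 hF3 hB3 (mul_pos hKt (Real.rpow_pos_of_pos ht _)) he hW hR0 hm0
    (Dd_sst (t ^ (-d)) U.1 K) _ u rfl rfl (fun z hz y hy => ?_) (fun k hk p hp q hq h => ?_)
    (fun k hk p hp q hq h y hy => ?_) (by positivity) ?_ ?_ ?_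
  · have h5 := C.U_u z hz y hy
    exact (C.u_le z hz y hy).trans (pow_le_one₀ h5.1 h5.2)
  · exact mass_sq C.toCls (by linarith) hk hp hq h
  · exact colN ha hd0.le hL ht ht1 hs hr C hk hp hq h hy
  · have hg := gauge_cls C.toCls hs.le
    rw [hU22] at hg
    have e1 : (t ^ (-d)) ^ 2 * (t ^ (1 - c)) ^ 2 = t ^ (2 - 2 * c - 2 * d) := by
      rw [← Real.rpow_natCast (t ^ (-d)) 2, ← Real.rpow_natCast (t ^ (1 - c)) 2,
        ← Real.rpow_mul ht.le, ← Real.rpow_mul ht.le, ← Real.rpow_add ht]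
      congr 1
      push_cast
      ring
    calc 8 * (t ^ (-d)) ^ 2 * (240000 * ((Kt * t ^ (1 - c)) ^ 2 * e)) *
          (A2 K (fun p => g p.1 p.2) x.2.1 x.2.2 * √(A4 K (fun p => g p.1 p.2) x.2.1 x.2.2))
        ≤ 8 * (t ^ (-d)) ^ 2 * (240000 * ((Kt * t ^ (1 - c)) ^ 2 * e)) * (s * √s) := by
          have h0 : 0 ≤ 8 * (t ^ (-d)) ^ 2 * (240000 * ((Kt * t ^ (1 - c)) ^ 2 * e)) := by
            positivity
          exact mul_le_mul_of_nonneg_left hg h0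
      _ = 1920000 * Kt ^ 2 * e * (((t ^ (-d)) ^ 2 * (t ^ (1 - c)) ^ 2) * (s * √s)) := by ring
      _ = 1920000 * Kt ^ 2 * e * (t ^ (2 - 2 * c - 2 * d) * s ^ (3 / 2 : ℝ)) := by rw [e1, hS3]
      _ ≤ _ := by
        refine mul_le_mul_of_nonneg_right (by linarith) (by positivity)
  · exact mul_pos (inv_pos.2 hl) (mul_pos (by linarith) hposB)
  · refine mul_le_mul_of_nonneg_left (hend.trans ?_) (inv_nonneg.2 hl.le)
    exact mul_le_mul_of_nonneg_right (by linarith) hposB.le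

/-- **The number of E2**: `√l 146 √(gA gB) cP`. -/
theorem gapN_num {e₀ c d CA CB t s r cP : ℝ} (he0 : 0 < e₀) (hc : c ≤ e₀ / 100)
    (hd : d ≤ e₀ / 100) (hCA : 0 < CA) (hCB : 0 < CB) (ht : 0 < t) (ht1 : t ≤ 1) (hs : 0 < s)
    (hr : 1 ≤ r) (hcP : 0 ≤ cP) (K : ℕ) :
    √(t ^ (2 - e₀) * √s * r ^ e₀) * (146 * √(CA * (t ^ (2 - 2 * c - 2 * d) * s ^ (3 / 2 : ℝ)) *
      ((t ^ (2 - e₀) * √s * r ^ e₀)⁻¹ *
        (CB * (t ^ (2 + e₀ / 4) * s ^ (3 / 2 : ℝ) * r ^ (-(e₀ / 4)))))) * (cP * 8 ^ K)) ≤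
      146 * √(CA * CB) * cP * (t ^ (2 + e₀ / 10) * s ^ (3 / 2 : ℝ) * r ^ (-(e₀ / 8)) * 8 ^ K) := by
  have hr0 : 0 < r := by linarith
  have hS : 0 < √s := Real.sqrt_pos.2 hs
  set l : ℝ := t ^ (2 - e₀) * √s * r ^ e₀ with hl'
  have hl : 0 < l := by
    have h1 : 0 < t ^ (2 - e₀) := Real.rpow_pos_of_pos ht _
    have h2 : 0 < r ^ e₀ := Real.rpow_pos_of_pos hr0 _
    positivity
  have key : √l * √(CA * (t ^ (2 - 2 * c - 2 * d) * s ^ (3 / 2 : ℝ)) *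
      (l⁻¹ * (CB * (t ^ (2 + e₀ / 4) * s ^ (3 / 2 : ℝ) * r ^ (-(e₀ / 4)))))) ≤
      √(CA * CB) * (t ^ (2 + e₀ / 10) * s ^ (3 / 2 : ℝ) * r ^ (-(e₀ / 8))) := by
    rw [← Real.sqrt_mul hl.le]
    have e1 : l * (CA * (t ^ (2 - 2 * c - 2 * d) * s ^ (3 / 2 : ℝ)) *
        (l⁻¹ * (CB * (t ^ (2 + e₀ / 4) * s ^ (3 / 2 : ℝ) * r ^ (-(e₀ / 4)))))) =
        CA * CB * ((t ^ (2 - 2 * c - 2 * d) * t ^ (2 + e₀ / 4)) *
          (s ^ (3 / 2 : ℝ) * s ^ (3 / 2 : ℝ)) * r ^ (-(e₀ / 4))) := by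
      calc _ = CA * CB * ((t ^ (2 - 2 * c - 2 * d) * t ^ (2 + e₀ / 4)) *
          (s ^ (3 / 2 : ℝ) * s ^ (3 / 2 : ℝ)) * r ^ (-(e₀ / 4))) * (l * l⁻¹) := by ring
        _ = _ := by rw [mul_inv_cancel₀ hl.ne', mul_one]
    rw [e1, Real.sqrt_mul (by positivity)]
    refine mul_le_mul_of_nonneg_left ?_ (Real.sqrt_nonneg _)
    have h0 : 0 ≤ t ^ (2 + e₀ / 10) * s ^ (3 / 2 : ℝ) * r ^ (-(e₀ / 8)) := by positivity
    refine (Real.sqrt_le_left h0).2 ?_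
    have e2 : (t ^ (2 + e₀ / 10) * s ^ (3 / 2 : ℝ) * r ^ (-(e₀ / 8))) ^ 2 =
        t ^ (4 + e₀ / 5) * (s ^ (3 / 2 : ℝ) * s ^ (3 / 2 : ℝ)) * r ^ (-(e₀ / 4)) := by
      rw [mul_pow, mul_pow, ← Real.rpow_natCast (t ^ (2 + e₀ / 10)) 2,
        ← Real.rpow_natCast (r ^ (-(e₀ / 8))) 2, ← Real.rpow_mul ht.le, ← Real.rpow_mul hr0.le, sq]
      congr 2
      · congr 2
        push_cast
        ring
      · push_cast
        ring
    rw [e2, ← Real.rpow_add ht]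
    have h3 : t ^ (2 - 2 * c - 2 * d + (2 + e₀ / 4)) ≤ t ^ (4 + e₀ / 5) :=
      Real.rpow_le_rpow_of_exponent_ge ht ht1 (by linarith)
    gcongr
  calc √l * (146 * √(CA * (t ^ (2 - 2 * c - 2 * d) * s ^ (3 / 2 : ℝ)) *
      (l⁻¹ * (CB * (t ^ (2 + e₀ / 4) * s ^ (3 / 2 : ℝ) * r ^ (-(e₀ / 4)))))) * (cP * 8 ^ K))
      = (√l * √(CA * (t ^ (2 - 2 * c - 2 * d) * s ^ (3 / 2 : ℝ)) *
      (l⁻¹ * (CB * (t ^ (2 + e₀ / 4) * s ^ (3 / 2 : ℝ) * r ^ (-(e₀ / 4))))))) *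
        (146 * cP * 8 ^ K) := by ring
    _ ≤ (√(CA * CB) * (t ^ (2 + e₀ / 10) * s ^ (3 / 2 : ℝ) * r ^ (-(e₀ / 8)))) *
        (146 * cP * 8 ^ K) := mul_le_mul_of_nonneg_right key (by positivity)
    _ = _ := by ring

end

end Vale.Agent.P141.H576
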