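import Vale.Agent.P141.H576.GlueW
import Vale.Agent.P141.H103.CapA
import Vale.Agent.P141.H338.CapN
import Vale.Agent.P141.H677.Fam

/-!
# P141, line (A), [T5]: the gap family of the killed inputs

`D k x y` : the square of scale `k` is dead (`Dd` : constant on squares, inherited by smaller
squares).  `kD D F` : the input killed at scale `0` and on the dead squares, `QD D Q` its affected
squares.

* `QD_root` : packing, `agree_kD` : time `k` and time `k + 1` agree off `QD`;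
* `capB_kD` : the node cap with the END value, from local masses and a bound of all columns;
* `gapI` : `GapFam` for `fA g (kF Λ g K F1)` and `fb u (kD D F3)`;
* `GapFam.of_cut` : the same numbers for static cuts of the two families.
-/

namespace Vale.Agent.P141.H576

open Finset Matrix Vale.Agent.P141.PL
open Vale.Agent.P141.H103 (PA QK QK_congr QK_zero PA_zero PA_congr)
open Vale.Agent.P141.H588G (S2 cnt)
open Vale.Agent.P141.PL.H315 (A2 avg)
open Vale.Agent.P141.H48 (A4 US ES BSl Mo4 sst Qth pth ind sum_ind_le_one)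
open Vale.Agent.P141.H550 (avg_congr)
open Vale.Agent.P141.H769 (corner ix_of_le sst_congr sst_anti sq_pts pt_pack)
open Vale.Agent.P141.H677 (KT GT tr_T fA fb kF)
open Vale.Agent.P141.H338 (endV clD clD_nonneg capB_T)

noncomputable section

open scoped Classical

/-! ### Dead squares -/

/-- dead squares: constant on squares, inherited by the smaller squares -/
structure Dd (D : ℕ → ℤ → ℤ → Prop) : Prop where
  congr : ∀ k x x' y y', ix k x = ix k x' → ix k y = ix k y' → (D k x y ↔ D k x' y')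
  mono : ∀ k x y, D (k + 1) x y → D k x y

theorem Dd_sst (Λ : ℝ) (a : ℤ × ℤ → ℝ) (K : ℕ) : Dd fun k x y => sst Λ a K k x y :=
  ⟨fun _ _ _ _ _ hx hy => sst_congr hx hy, fun k _ _ h => sst_anti (Nat.le_succ k) h⟩

theorem Dd.or {D D' : ℕ → ℤ → ℤ → Prop} (h : Dd D) (h' : Dd D') :
    Dd fun k x y => D k x y ∨ D' k x y :=
  ⟨fun k x x' y y' hx hy => or_congr (h.congr k x x' y y' hx hy) (h'.congr k x x' y y' hx hy),
    fun k x y hd => hd.imp (h.mono k x y) (h'.mono k x y)⟩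

theorem Dd.anti {D : ℕ → ℤ → ℤ → Prop} (h : Dd D) {k l : ℕ} (hkl : k ≤ l) {x y : ℤ}
    (hd : D l x y) : D k x y := by
  induction l, hkl using Nat.le_induction with
  | base => exact hd
  | succ l _ ih => exact ih (h.mono l x y hd)

/-- the stopping squares, point form -/
def dpt (D : ℕ → ℤ → ℤ → Prop) (k : ℕ) (x y : ℤ) : Prop := D k x y ∧ ¬ D (k + 1) x y

variable {D : ℕ → ℤ → ℤ → Prop}

theorem dpt_congr (hD : Dd D) {k : ℕ} {x x' y y' : ℤ} (hx : ix k x = ix k x')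
    (hy : ix k y = ix k y') : dpt D k x y ↔ dpt D k x' y' := by
  unfold dpt
  rw [hD.congr k x x' y y' hx hy,
    hD.congr (k + 1) x x' y y' (ix_of_le (Nat.le_succ k) hx) (ix_of_le (Nat.le_succ k) hy)]

theorem dpt_disj (hD : Dd D) {x y : ℤ} (k l : ℕ) (hk : dpt D k x y) (hl : dpt D l x y) : k = l := by
  rcases lt_trichotomy k l with h | h | h
  · exact absurd (hD.anti (by omega : k + 1 ≤ l) hl.1) hk.2
  · exact h
  · exact absurd (hD.anti (by omega : l + 1 ≤ k) hk.1) hl.2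

/-- packing of the stopping squares -/
theorem dead_pack (hD : Dd D) (N : ℕ) (R S : ℤ) :
    ∑ k ∈ range (N + 1), ∑ r ∈ iv (N - k) R, ∑ s ∈ iv (N - k) S,
      (if D k (2 ^ k * r) (2 ^ k * s) ∧ ¬ D (k + 1) (2 ^ k * r) (2 ^ k * s)
        then (4 : ℝ) ^ k else 0) ≤ 4 ^ N := by
  have h1 : ∀ k ∈ range (N + 1), ∑ r ∈ iv (N - k) R, ∑ s ∈ iv (N - k) S,
      (if D k (2 ^ k * r) (2 ^ k * s) ∧ ¬ D (k + 1) (2 ^ k * r) (2 ^ k * s)
        then (4 : ℝ) ^ k else 0) =
      ∑ x ∈ iv N R, ∑ y ∈ iv N S, ind (dpt D k x y) := by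
    intro k hk
    have hkN : k ≤ N := by have := mem_range.1 hk; omega
    rw [← sq_pts hkN R S]
    refine sum_congr rfl fun r _ => sum_congr rfl fun s _ => ?_
    have h2 : ∀ x ∈ iv k r, ∀ y ∈ iv k s, ind (dpt D k x y) =
        ind (dpt D k (2 ^ k * r) (2 ^ k * s)) := by
      intro x hx y hy
      unfold ind
      rw [if_congr (dpt_congr hD (corner k hx) (corner k hy)) rfl rfl]
    rw [sum_congr rfl fun x hx => sum_congr rfl fun y hy => h2 x hx y hy]
    simp only [sum_const, card_iv, nsmul_eq_mul]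
    have h3 : (2 : ℝ) ^ k * 2 ^ k = 4 ^ k := by rw [← mul_pow]; norm_num
    unfold ind dpt
    split_ifs
    · push_cast
      rw [mul_one, h3]
    · push_cast
      simp
  rw [sum_congr rfl h1, sum_comm]
  have h4 : ∀ x ∈ iv N R, ∑ k ∈ range (N + 1), ∑ y ∈ iv N S, ind (dpt D k x y) ≤
      ∑ y ∈ iv N S, (1 : ℝ) := by
    intro x _
    rw [sum_comm]
    refine sum_le_sum fun y _ => ?_
    exact sum_ind_le_one (fun k l => dpt_disj hD k l) _
  refine (sum_le_sum h4).trans (le_of_eq ?_)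
  simp only [sum_const, card_iv, nsmul_eq_mul, mul_one]
  push_cast
  rw [← mul_pow]
  norm_num

/-! ### The killed input -/

/-- the input killed at scale `0` and on the dead squares -/
def kD (D : ℕ → ℤ → ℤ → Prop) (F : ℕ → Pt → ℝ) (k : ℕ) (q : Pt) : ℝ :=
  if k = 0 ∨ D k q.2.1 q.2.2 then 0 else F k q

/-- its affected squares, cell indices `i` of `x₀` and `r`, `s` -/
def QD (D : ℕ → ℤ → ℤ → Prop) (Q : ℕ → Pt → Prop) (k : ℕ) (i r s : ℤ) : Prop :=
  k = 0 ∨ Q k (i, r, s) ∨ (D k (2 ^ k * r) (2 ^ k * s) ∧ ¬ D (k + 1) (2 ^ k * r) (2 ^ k * s))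

theorem kD_sst (Λ : ℝ) (a : ℤ × ℤ → ℝ) (K : ℕ) (F : ℕ → Pt → ℝ) :
    kD (fun k x y => sst Λ a K k x y) F = kF Λ a K F := rfl

theorem Qth_QD (Λ : ℝ) (a : ℤ × ℤ → ℝ) (K : ℕ) (Q : ℕ → Pt → Prop) (x0 : ℤ) (k : ℕ) (r s : ℤ) :
    Qth Λ a K Q x0 k r s ↔ QD (fun k x y => sst Λ a K k x y) Q k (ix k x0) r s := Iff.rfl

/-- packing of the affected squares, all squares of scale `K' ≤ n` -/
theorem QD_pack (hD : Dd D) {n : ℕ} {e cP : ℝ} {F : ℕ → Pt → ℝ} {Q : ℕ → Pt → Prop}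
    (hB : BSl n e cP F Q) (x0 : ℤ) {K' : ℕ} (hK' : K' ≤ n) (r s : ℤ) :
    ∑ k ∈ range (K' + 1), ∑ r' ∈ iv (K' - k) r, ∑ s' ∈ iv (K' - k) s,
      (if QD D Q k (ix k x0) r' s' then (4 : ℝ) ^ k else 0) ≤ (cP + 2) * 4 ^ K' := by
  have h1 : ∀ k r' s', (if QD D Q k (ix k x0) r' s' then (4 : ℝ) ^ k else 0) ≤
      (if k = 0 then (4 : ℝ) ^ k else 0) + (if Q k (ix k x0, r', s') then (4 : ℝ) ^ k else 0) +
      (if D k (2 ^ k * r') (2 ^ k * s') ∧ ¬ D (k + 1) (2 ^ k * r') (2 ^ k * s')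
        then (4 : ℝ) ^ k else 0) := by
    intro k r' s'
    have h4 : (0 : ℝ) < 4 ^ k := by positivity
    unfold QD
    split_ifs <;> first | linarith | tauto
  refine (sum_le_sum fun k _ => sum_le_sum fun r' _ => sum_le_sum fun s' _ => h1 k r' s').trans ?_
  simp only [sum_add_distrib]
  have h2 := hB.pack x0 K' hK' r s
  have h3 := dead_pack hD K' r s
  have h5 := pt_pack K' r s
  rw [h5]
  linarith

/-- packing of the root in the letters of `GapFam` -/
theorem QD_root (hD : Dd D) {n : ℕ} {e cP : ℝ} {F : ℕ → Pt → ℝ} {Q : ℕ → Pt → Prop}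
    (hB : BSl n e cP F Q) {K : ℕ} (hK : K ≤ n) (R S x0 : ℤ) :
    ∑ k ∈ range K, cnt K R S k (QD D Q k (ix k x0)) ≤ (cP + 2) * 4 ^ K := by
  refine le_trans ?_ (QD_pack hD hB x0 hK R S)
  rw [sum_range_succ]
  have h0 : 0 ≤ ∑ r' ∈ iv (K - K) R, ∑ s' ∈ iv (K - K) S,
      (if QD D Q K (ix K x0) r' s' then (4 : ℝ) ^ K else 0) := by
    refine sum_nonneg fun _ _ => sum_nonneg fun _ _ => ?_
    split_ifs
    · positivity
    · exact le_rfl
  refine (le_of_eq ?_).trans (le_add_of_nonneg_right h0)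
  refine sum_congr rfl fun k _ => ?_
  unfold cnt
  rw [sum_comm]
  simp only [mul_sum]
  refine sum_congr rfl fun r _ => sum_congr rfl fun s _ => ?_
  split_ifs <;> simp

/-- packing of the root, the two cells in the other order -/
theorem QD_root' (hD : Dd D) {n : ℕ} {e cP : ℝ} {F : ℕ → Pt → ℝ} {Q : ℕ → Pt → Prop}
    (hB : BSl n e cP F Q) {K : ℕ} (hK : K ≤ n) (R S x0 : ℤ) :
    ∑ k ∈ range K, cnt K R S k (fun r s => QD D Q k (ix k x0) s r) ≤ (cP + 2) * 4 ^ K := by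
  refine le_trans (le_of_eq ?_) (QD_root hD hB hK S R x0)
  refine sum_congr rfl fun k _ => ?_
  unfold cnt
  rw [sum_comm]

/-- time `k` and time `k + 1` of the killed input agree off the affected squares -/
theorem agree_kD (hD : Dd D) {n : ℕ} {e cP : ℝ} {F : ℕ → Pt → ℝ} {Q : ℕ → Pt → Prop}
    (hB : BSl n e cP F Q) {k : ℕ} (hk : k < n) {x0 r s : ℤ} (hQ : ¬ QD D Q k (ix k x0) r s)
    {x y : ℤ} (hx : x ∈ iv k r) (hy : y ∈ iv k s) :
    kD D F (k + 1) (x0, x, y) = kD D F k (x0, x, y) := by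
  unfold QD at hQ
  push Not at hQ
  obtain ⟨hk0, hQ1, hQ2⟩ := hQ
  have hx1 : ix k x = r := mem_iv.1 hx
  have hy1 : ix k y = s := mem_iv.1 hy
  have e1 := hD.congr k x (2 ^ k * r) y (2 ^ k * s) (corner k hx) (corner k hy)
  have e2 := hD.congr (k + 1) x (2 ^ k * r) y (2 ^ k * s)
    (ix_of_le (Nat.le_succ k) (corner k hx)) (ix_of_le (Nat.le_succ k) (corner k hy))
  unfold kD
  by_cases hst : D (k + 1) x y
  · rw [if_pos (Or.inr hst), if_pos (Or.inr (hD.mono k x y hst))]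
  · have hst' : ¬ D k x y := fun h => hst (e2.2 (hQ2 (e1.1 h)))
    rw [if_neg (by push Not; exact ⟨by omega, hst⟩), if_neg (by push Not; exact ⟨hk0, hst'⟩)]
    refine hB.agree k (by omega) (by omega) (ix k x0, r, s) hQ1 (x0, x, y) ?_
    rw [mem_cb]
    unfold cx
    rw [hx1, hy1]

/-! ### The family of `b` -/

section fam

variable {ι : Type*} [Fintype ι] [DecidableEq ι]

omit [Fintype ι] [DecidableEq ι] in
theorem fb_kD_zero (u : ℤ → ℤ → ι → ℝ) (F : ℕ → Pt → ℝ) (x0 : ℤ) : fb u (kD D F) x0 0 = 0 := by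
  funext x y
  unfold fb kD
  rw [if_pos (Or.inl rfl), zero_smul]
  rfl

theorem agB_kD (hD : Dd D) {n : ℕ} {e cP : ℝ} {F : ℕ → Pt → ℝ} {Q : ℕ → Pt → Prop}
    (hB : BSl n e cP F Q) (u : ℤ → ℤ → ι → ℝ) (K : ℤ → ℕ → ℤ → Matrix ι ι ℝ) {k : ℕ} (hk : k < n)
    {x0 r s : ℤ} (hQ : ¬ QD D Q k (ix k x0) r s) :
    QK (fb u (kD D F) x0 (k + 1)) K k k r s = QK (fb u (kD D F) x0 k) K k k r s :=
  QK_congr K fun x hx y hy => by
    unfold fb
    rw [agree_kD hD hB hk hQ hx hy]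

/-- **The node cap of the killed input**: local masses and all columns are bounded on the squares
with alive parent. -/
theorem capB_kD (hD : Dd D) {n : ℕ} {d e cP Λ l R m : ℝ} {F : ℕ → Pt → ℝ} (hF : US n d e cP F)
    (hd : 0 < d) (he : 1 ≤ e) (hl : 0 < l) (hΛ : 0 < Λ) (hR : 0 ≤ R) (hm0 : 0 ≤ m)
    {k : ℕ} (hk : k < n) (i r s : ℤ) (u : ℤ → ℤ → ι → ℝ)
    (hu : ∀ x ∈ iv k r, ∀ y ∈ iv k s, u x y ⬝ᵥ u x y ≤ 1)
    (hm : ¬ D (k + 1) (2 ^ k * r) (2 ^ k * s) →
      (avg (iv k s) fun y => avg (iv k r) fun x => u x y ⬝ᵥ u x y) ≤ m)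
    (hcol : ¬ D (k + 1) (2 ^ k * r) (2 ^ k * s) → ∀ y ∈ iv k s,
      (avg (iv k r) fun x => u x y ⬝ᵥ u x y) ≤ R) (J : ℕ) :
    ∑ x0 ∈ iv k i, S2 (QK (fb u (kD D F) x0 (k + 1)) (KT l u) k k r s) ≤
      l⁻¹ * endV d e Λ l m 0 R J * 2 ^ k := by
  have key : ∀ x ∈ iv k r, ∀ y ∈ iv k s,
      (D (k + 1) x y ↔ D (k + 1) (2 ^ k * r) (2 ^ k * s)) := fun x hx y hy =>
    hD.congr (k + 1) x (2 ^ k * r) y (2 ^ k * s)
      (ix_of_le (Nat.le_succ k) (corner k hx)) (ix_of_le (Nat.le_succ k) (corner k hy))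
  have hcl : ∀ y ∈ iv k s, clD (D (k + 1)) u k r y =
      if D (k + 1) (2 ^ k * r) (2 ^ k * s) then 0 else avg (iv k r) fun x => u x y ⬝ᵥ u x y := by
    intro y hy
    unfold clD
    by_cases h : D (k + 1) (2 ^ k * r) (2 ^ k * s)
    · rw [if_pos h]
      refine (avg_congr fun x hx => if_pos ((key x hx y hy).2 h)).trans ?_
      unfold avg
      simp
    · rw [if_neg h]
      exact avg_congr fun x hx => if_neg fun hh => h ((key x hx y hy).1 hh)
  have hle : ∀ y ∈ iv k s, clD (D (k + 1)) u k r y ≤ R := by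
    intro y hy
    rw [hcl y hy]
    split_ifs with h
    · exact hR
    · exact hcol h y hy
  refine (capB_T hF hd he hl hΛ hR hk (i, r, s) u (D (k + 1)) (mh := 0) (m := m)
    (fun x hx y hy _ => hu x hx y hy) ?_ ?_ (kD D F (k + 1)) (fun _ => 1)
    (fun _ _ => by norm_num) (fun z _ x _ y _ => ?_) J).trans (le_of_eq (by ring))
  · refine le_of_eq ?_
    refine (avg_congr fun y hy => if_neg (not_lt.2 (hle y hy))).trans ?_
    unfold avg
    simp
  · by_cases h : D (k + 1) (2 ^ k * r) (2 ^ k * s)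
    · refine le_trans (le_of_eq ?_) hm0
      refine (avg_congr fun y hy => by rw [hcl y hy, if_pos h]).trans ?_
      unfold avg
      simp
    · refine le_trans (le_of_eq ?_) (hm h)
      exact avg_congr fun y hy => by rw [hcl y hy, if_neg h]
  · unfold kD
    simp

/-- **The gap family of the killed inputs.** -/
theorem gapI {n K : ℕ} (hK : K ≤ n) {l Λ M gA gB d e cP W R m : ℝ} (hl : 0 < l) (hΛ : 1 ≤ Λ)
    (hM : 0 ≤ M) {F1 F3 : ℕ → Pt → ℝ} {e1 : ℝ} {Q1 Q3 : ℕ → Pt → Prop}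
    (hcP : 0 ≤ cP) (hB1 : BSl n e1 cP F1 Q1) (hMo : Mo4 n M F1) (hF : US n d e cP F3)
    (hB3 : BSl n e cP F3 Q3) (hd : 0 < d) (he : 1 ≤ e) (hW : 0 < W) (hR : 0 ≤ R) (hm0 : 0 ≤ m)
    (hD : Dd D) (g : ℤ × ℤ → ℝ) (u : ℤ → ℤ → ι → ℝ) {X Y S T R' t₀ : ℤ} (hS : S = ix K X)
    (hR' : R' = ix K Y) (hu : ∀ x ∈ iv K T, ∀ y ∈ iv K S, u x y ⬝ᵥ u x y ≤ 1)
    (hm : ∀ k < K, ∀ r ∈ iv (K - k) T, ∀ s ∈ iv (K - k) S,
      ¬ D (k + 1) (2 ^ k * r) (2 ^ k * s) →
      (avg (iv k s) fun y => avg (iv k r) fun x => u x y ⬝ᵥ u x y) ≤ m)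
    (hcol : ∀ k < K, ∀ r ∈ iv (K - k) T, ∀ s ∈ iv (K - k) S,
      ¬ D (k + 1) (2 ^ k * r) (2 ^ k * s) → ∀ y ∈ iv k s,
      (avg (iv k r) fun x => u x y ⬝ᵥ u x y) ≤ R) (J : ℕ) (hgA0 : 0 < gA)
    (hgA : 8 * Λ ^ 2 * M * (A2 K g X Y * √(A4 K g X Y)) ≤ gA) (hgB0 : 0 < gB)
    (hgB : l⁻¹ * endV d e W l m 0 R J ≤ gB) :
    GapFam l K (fun x => GT u x) (KT l u) R' S T t₀ (fA g (kF Λ g K F1)) (fb u (kD D F3))
      (fun k i z y => QD (fun k x y => sst Λ g K k x y) Q1 k i y z) (QD D Q3) gA gB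
      (cP + 2) where
  tr x := tr_T hl K u x
  agA x₀ k hk z hz y hy hQ := by
    simp only [H677.fA_kF]
    exact H103.agreeA hcP hB1 hK g X Y x₀ hk (hR' ▸ hz) (hS ▸ hy) hQ
  agB x₀ k hk x hx y hy hQ := agB_kD hD hB3 u (KT l u) (by omega) hQ
  zA x₀ z y := by
    simp only [H677.fA_kF, H103.Ap_zero]
    exact PA_zero 0 0 z y
  zB x₀ x y := by
    rw [fb_kD_zero]
    exact QK_zero _ 0 0 x y
  gA0 := hgA0
  gB0 := hgB0
  capA k hk i _ z hz y hy := by
    simp only [H677.fA_kF]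
    refine (H103.capA hΛ hM hMo hK g hk i z y (X := X) (Y := Y) ?_ ?_).trans ?_
    · rw [← hS]
      exact mem_iv.1 hy
    · rw [← hR']
      exact mem_iv.1 hz
    · exact mul_le_mul_of_nonneg_right hgA (by positivity)
  capB k hk i _ x hx y hy := by
    refine (capB_kD hD hF hd he hl hW hR hm0 (by omega) i x y u (fun a ha c hc => ?_)
      (hm k hk x hx y hy) (hcol k hk x hx y hy) J).trans
      (mul_le_mul_of_nonneg_right hgB (by positivity))
    refine hu a ?_ c ?_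
    · rw [mem_iv] at ha hx ⊢
      rw [← hx, ← ha, ix_ix, Nat.add_sub_cancel' hk.le]
    · rw [mem_iv] at hc hy ⊢
      rw [← hy, ← hc, ix_ix, Nat.add_sub_cancel' hk.le]
  packA x₀ _ := QD_root' (Dd_sst Λ g K) hB1 hK R' S x₀
  packB x₀ _ := QD_root hD hB3 hK T S x₀

/-! ### Static cuts -/

/-- **The same numbers for cut families**: same affected squares, `0` at time `0`, smaller squares
of the Gram matrices at the affected squares. -/
theorem GapFam.of_cut {l : ℝ} {N : ℕ} {G K : ℤ → ℕ → ℤ → Matrix ι ι ℝ} {R S T t₀ : ℤ}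
    {A A' : ℤ → ℕ → ℤ → ℤ → ℝ} {b b' : ℤ → ℕ → ℤ → ℤ → ι → ℝ} {qA qB : ℕ → ℤ → ℤ → ℤ → Prop}
    {gA gB cP : ℝ} (f : GapFam l N G K R S T t₀ A b qA qB gA gB cP)
    (agA : ∀ x₀ k, k < N → ∀ n ∈ iv (N - k) R, ∀ m ∈ iv (N - k) S, ¬ qA k (ix k x₀) n m →
      PA (A' x₀ (k + 1)) k k n m = PA (A' x₀ k) k k n m)
    (agB : ∀ x₀ k, k < N → ∀ n ∈ iv (N - k) T, ∀ m ∈ iv (N - k) S, ¬ qB k (ix k x₀) n m →
      QK (b' x₀ (k + 1)) K k k n m = QK (b' x₀ k) K k k n m)
    (zA : ∀ x₀ n m, PA (A' x₀ 0) 0 0 n m = 0) (zB : ∀ x₀ n m, QK (b' x₀ 0) K 0 0 n m = 0)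
    (cA : ∀ x₀ k, k < N → ∀ n ∈ iv (N - k) R, ∀ m ∈ iv (N - k) S,
      S2 (PA (A' x₀ (k + 1)) k k n m) ≤ S2 (PA (A x₀ (k + 1)) k k n m))
    (cB : ∀ x₀ k, k < N → ∀ n ∈ iv (N - k) T, ∀ m ∈ iv (N - k) S,
      S2 (QK (b' x₀ (k + 1)) K k k n m) ≤ S2 (QK (b x₀ (k + 1)) K k k n m)) :
    GapFam l N G K R S T t₀ A' b' qA qB gA gB cP :=
  { f with
    agA := agA
    agB := agB
    zA := zA
    zB := zB
    capA := fun k hk i hi n hn m hm => (Finset.sum_le_sum fun x₀ _ => cA x₀ k hk n hn m hm).trans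
      (f.capA k hk i hi n hn m hm)
    capB := fun k hk i hi n hn m hm => (Finset.sum_le_sum fun x₀ _ => cB x₀ k hk n hn m hm).trans
      (f.capB k hk i hi n hn m hm) }

end fam

/-- a symmetric idempotent on both sides makes `S2` smaller -/
theorem S2_proj_le {κ : Type*} [Fintype κ] [DecidableEq κ] {P X : Matrix κ κ ℝ} (hP : Pᵀ = P)
    (hPP : P * P = P) (hX : X.PosSemidef) : S2 (P * X * P) ≤ S2 X := by
  have hXt : Xᵀ = X := by
    have := hX.isHermitian
    rwa [IsHermitian, conjTranspose_eq_transpose_of_trivial] at this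
  have hQ : (1 - P)ᵀ = 1 - P := by rw [transpose_sub, transpose_one, hP]
  have e0 : (1 - P) * (1 - P) = 1 - P := by
    simp [Matrix.sub_mul, Matrix.mul_sub, hPP]
  have nn : ∀ Y : Matrix κ κ ℝ, 0 ≤ (Yᵀ * Y).trace := fun Y => by
    have h := (posSemidef_conjTranspose_mul_self Y).trace_nonneg
    rwa [conjTranspose_eq_transpose_of_trivial] at h
  -- `tr (X X) = tr (P X P X) + 2 tr ((1 - P) X P X) + tr ((1 - P) X (1 - P) X)`
  have a1 : 0 ≤ ((1 - P) * X * P * X).trace := by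
    have h := nn (P * X * (1 - P))
    have e : ((P * X * (1 - P))ᵀ * (P * X * (1 - P))).trace = ((1 - P) * X * P * X).trace := by
      rw [transpose_mul, transpose_mul, hQ, hXt, hP]
      calc ((1 - P) * (X * P) * (P * X * (1 - P))).trace
          = ((1 - P) * X * (P * P) * X * (1 - P)).trace := by simp only [Matrix.mul_assoc]
        _ = ((1 - P) * ((1 - P) * X * (P * P) * X)).trace := by rw [trace_mul_comm]
        _ = (((1 - P) * (1 - P)) * X * (P * P) * X).trace := by simp only [Matrix.mul_assoc]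
        _ = _ := by rw [e0, hPP]
    rwa [e] at h
  have a2 : 0 ≤ ((1 - P) * X * (1 - P) * X).trace := by
    have h := nn ((1 - P) * X * (1 - P))
    have e : (((1 - P) * X * (1 - P))ᵀ * ((1 - P) * X * (1 - P))).trace =
        ((1 - P) * X * (1 - P) * X).trace := by
      rw [transpose_mul, transpose_mul, hQ, hXt]
      calc ((1 - P) * (X * (1 - P)) * ((1 - P) * X * (1 - P))).trace
          = ((1 - P) * X * ((1 - P) * (1 - P)) * X * (1 - P)).trace := by
            simp only [Matrix.mul_assoc]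
        _ = ((1 - P) * ((1 - P) * X * ((1 - P) * (1 - P)) * X)).trace := by rw [trace_mul_comm]
        _ = (((1 - P) * (1 - P)) * X * ((1 - P) * (1 - P)) * X).trace := by
            simp only [Matrix.mul_assoc]
        _ = _ := by rw [e0]
    rwa [e] at h
  have a3 : (P * X * (1 - P) * X).trace = ((1 - P) * X * P * X).trace := by
    calc (P * X * (1 - P) * X).trace = ((P * X) * ((1 - P) * X)).trace := by
          simp only [Matrix.mul_assoc]
      _ = (((1 - P) * X) * (P * X)).trace := trace_mul_comm _ _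
      _ = _ := by simp only [Matrix.mul_assoc]
  have e1 : S2 (P * X * P) = (P * X * P * X).trace := by
    unfold S2
    calc (P * X * P * (P * X * P)).trace = (P * X * (P * P) * X * P).trace := by
          simp only [Matrix.mul_assoc]
      _ = (P * (P * X * (P * P) * X)).trace := by rw [trace_mul_comm]
      _ = ((P * P) * X * (P * P) * X).trace := by simp only [Matrix.mul_assoc]
      _ = _ := by rw [hPP]
  have e2 : (X * X).trace = (P * X * P * X).trace + (P * X * (1 - P) * X).trace +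
      (((1 - P) * X * P * X).trace + ((1 - P) * X * (1 - P) * X).trace) := by
    rw [← trace_add, ← trace_add, ← trace_add]
    congr 1
    simp only [Matrix.sub_mul, Matrix.mul_sub, Matrix.one_mul, Matrix.mul_one]
    abel
  rw [e1]
  unfold S2
  rw [e2, a3]
  linarith

end

end Vale.Agent.P141.H576
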