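import Vale.Agent.P141.H609.Reg1
import Vale.Agent.P141.H103.MidK
import Vale.Agent.P141.H588G.ChgW
import Vale.Agent.P141.H338.Lab4

/-!
# P141, line (A), [T5] E2.5: from the weighted gap to the arbitrary matrix `W`

Variables: `z` = outer variable of `A`, `y` = middle variable, `x` = outer variable of `b` (vector
valued, labels `κ`).  `sz l K q k m = √l K⁻¹ ze` is the gap part of the flow; `FZ` is the same
vector, times `hs k x * 2 ^ k`, read with labels in `lbs L`; `WZ` is the matrix of the node (rows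
`x` with label, columns `z`) of `H609.region1_lab`.

* `WZ_tr` : the Hilbert-Schmidt norm of the node, `WZ_le` : at most `√l` times the gap of the node;
* `WZ_sum` : the sum over the nodes is at most `4 ^ -L √l ∑ GW`;
* `GapFam`, `GapFam.gap` : E2 for families indexed by `x₀`; `GapFam.w` : the sum over `x₀` of the
  hypothesis `hw` of `H609.region1_lab`;
* `WZ_form` : the trace form of `H609.region1_lab` is `∑ z, ∑ x, hs k z * hs k x * (sz ⬝ᵥ C z x)`.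
-/

namespace Vale.Agent.P141.H576

open Finset Matrix Vale.Agent.P075 Vale.Agent.P141.PL Vale.Agent.P141.PL.H588
open Vale.Agent.P141.PL.H804 Vale.Agent.P141.H958 Vale.Agent.P141.H338
open Vale.Agent.P141.H103 (gK qK GW GW_gK PA QK PA_out QK_out PA_psd QK_psd PQ_mid PA_own QK_own)
open Vale.Agent.P141.H588G (S2 cnt gapSum)

noncomputable section

/-! ### blocks -/

/-- The signs of the scale `k` as a diagonal matrix. -/
theorem hd_eq {k : ℕ} (hk : 1 ≤ k) (m : ℤ) :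
    hd k = Matrix.diagonal fun i : Ix k => hs k (2 ^ k * m + val k i) := by
  obtain ⟨j, rfl⟩ := Nat.exists_eq_add_of_le' hk
  change rad (Ix j) = _
  rw [rad_diag]
  congr 1
  funext i
  exact (hs_val j m i).symm

/-- Trace of a product of two blocks. -/
theorem tr_bl (k : ℕ) (F H : ℤ → ℤ → ℝ) (p q : ℤ) :
    ((bl k F p q)ᵀ * bl k H p q).trace = ∑ z ∈ iv k p, ∑ x ∈ iv k q, F z x * H z x := by
  rw [sum_iv]
  simp only [sum_iv k q]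
  simp only [Matrix.trace, Matrix.diag, Matrix.mul_apply, Matrix.transpose_apply, bl, smp]
  exact sum_comm

/-- Trace of a product of two blocks with the signs in between. -/
theorem tr_bl_hd {k : ℕ} (hk : 1 ≤ k) (F H : ℤ → ℤ → ℝ) (p q : ℤ) :
    ((bl k F p q)ᵀ * hd k * bl k H p q).trace =
      ∑ z ∈ iv k p, ∑ x ∈ iv k q, hs k z * (F z x * H z x) := by
  rw [sum_iv]
  simp only [sum_iv k q]
  rw [hd_eq hk p, Matrix.trace, sum_comm]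
  refine sum_congr rfl fun j _ => ?_
  rw [Matrix.diag_apply, Matrix.mul_apply]
  refine sum_congr rfl fun i _ => ?_
  rw [Matrix.mul_diagonal, Matrix.transpose_apply]
  simp only [bl, smp]
  ring

/-- Sums over the fine grid, label on the second variable. -/
theorem sum_fine (L k : ℕ) (p q : ℤ) (g : ℤ → ℤ → ℤ → ℝ) :
    ∑ z ∈ iv (k + L) p, ∑ x ∈ iv (k + L) q, g (lb L x) (ix L z) (ix L x) =
      2 ^ L * ∑ z ∈ iv k p, ∑ x ∈ iv k q, ∑ l ∈ lbs L, g l z x := by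
  rw [sum_iv_ix L k p fun z => ∑ x ∈ iv (k + L) q, g (lb L x) z (ix L x)]
  congr 1
  exact sum_congr rfl fun z _ => sum_iv_add L k q fun l x => g l z x

/-! ### the matrix of a labelled function -/

/-- The matrix of the node: rows `x` with label, columns `z`. -/
def WF (L : ℕ) (F : ℕ → ℤ → ℤ → ℤ → ℤ → ℝ) (k' : ℕ) (m : Pt) : Matrix (Ix k') (Ix k') ℝ :=
  ((2 : ℝ) ^ L)⁻¹ • (bl k' (encR L (F (k' - L) m.2.1)) m.1 m.2.2)ᵀ

/-- Hilbert-Schmidt norm of the matrix of the node. -/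
theorem WF_tr (L : ℕ) (F : ℕ → ℤ → ℤ → ℤ → ℤ → ℝ) (k : ℕ) (m : Pt) :
    (WF L F (k + L) m * (WF L F (k + L) m)ᵀ).trace =
      ∑ z ∈ iv k m.1, ∑ x ∈ iv k m.2.2, ∑ l ∈ lbs L, F k m.2.1 l z x ^ 2 := by
  unfold WF
  rw [Nat.add_sub_cancel, transpose_smul, transpose_transpose, Matrix.smul_mul, Matrix.mul_smul,
    smul_smul, trace_smul, smul_eq_mul, tr_bl]
  simp only [encR_apply]
  have h2 : ∀ a : ℝ, √(2 ^ L) * a * (√(2 ^ L) * a) = 2 ^ L * a ^ 2 := fun a => by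
    have h := sqrt_two_mul L
    calc √(2 ^ L) * a * (√(2 ^ L) * a) = (√(2 ^ L) * √(2 ^ L)) * a ^ 2 := by ring
      _ = _ := by rw [h]
  simp only [h2]
  rw [sum_fine L k m.1 m.2.2 fun l z x => 2 ^ L * F k m.2.1 l z x ^ 2]
  simp only [← mul_sum]
  have h3 : (2 : ℝ) ^ L ≠ 0 := by positivity
  field_simp

/-- The trace form of the node. -/
theorem WF_form (L : ℕ) {k : ℕ} (hk : 1 ≤ k) (F : ℕ → ℤ → ℤ → ℤ → ℤ → ℝ) (C : ℤ → ℤ → ℤ → ℝ)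
    (m : Pt) :
    (2 ^ (k + L) : ℝ)⁻¹ *
        (WF L F (k + L) m * hd (k + L) * bl (k + L) (encR L C) m.1 m.2.2).trace =
      (2 ^ k : ℝ)⁻¹ * ∑ z ∈ iv k m.1, ∑ x ∈ iv k m.2.2,
        hs k z * ∑ l ∈ lbs L, F k m.2.1 l z x * C l z x := by
  unfold WF
  rw [Nat.add_sub_cancel, Matrix.smul_mul, Matrix.smul_mul, trace_smul, smul_eq_mul,
    tr_bl_hd (by omega)]
  simp only [encR_apply, hs_add hk]
  have h2 : ∀ s a b : ℝ, s * (√(2 ^ L) * a * (√(2 ^ L) * b)) = 2 ^ L * (s * (a * b)) :=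
    fun s a b => by
      have h := sqrt_two_mul L
      calc s * (√(2 ^ L) * a * (√(2 ^ L) * b)) = (√(2 ^ L) * √(2 ^ L)) * (s * (a * b)) := by ring
        _ = _ := by rw [h]
  simp only [h2]
  rw [sum_fine L k m.1 m.2.2 fun l z x => 2 ^ L * (hs k z * (F k m.2.1 l z x * C l z x))]
  simp only [← mul_sum]
  rw [pow_add]
  have h3 : (2 : ℝ) ^ L ≠ 0 := by positivity
  have h4 : (2 : ℝ) ^ k ≠ 0 := by positivity
  field_simp

/-! ### the gap part of the flow -/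

section vec

variable {κ : Type*} [Fintype κ] [DecidableEq κ]

/-- The gap part of the flow: `√l K⁻¹ ze`. -/
def sz (l : ℝ) (K : ℕ → ℤ → Matrix κ κ ℝ) (q : ℕ → ℤ → κ → ℝ) (k : ℕ) (m : ℤ) : κ → ℝ :=
  √l • ((K k m)⁻¹ *ᵥ H483.ze K q k m)

/-- `|√l K⁻¹ a|² ≤ √l ⟪a, K⁻¹ a⟫`. -/
theorem sq_sqrt_inv_le {l : ℝ} {G K : Matrix κ κ ℝ} (hl : 0 ≤ l) (hK : K.PosDef)
    (hG : G.PosSemidef) (h : K * K = l • (1 : Matrix κ κ ℝ) + G) (a : κ → ℝ) :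
    (√l • (K⁻¹ *ᵥ a)) ⬝ᵥ (√l • (K⁻¹ *ᵥ a)) ≤ √l * (a ⬝ᵥ K⁻¹ *ᵥ a) := by
  have h1 := H186.sqrt_le_form hK.posSemidef hG hl h (K⁻¹ *ᵥ a)
  rw [H186.inv_mulVec hK] at h1
  rw [dotProduct_smul, smul_dotProduct, smul_eq_mul, smul_eq_mul]
  refine mul_le_mul_of_nonneg_left ?_ (Real.sqrt_nonneg _)
  refine h1.trans (le_of_eq (dotProduct_comm _ _))

theorem sz_le {l : ℝ} {N : ℕ} {G K : ℕ → ℤ → Matrix κ κ ℝ} (h : H420.Tr l N G K)
    (q : ℕ → ℤ → κ → ℝ) (k : ℕ) (m : ℤ) :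
    sz l K q k m ⬝ᵥ sz l K q k m ≤
      √l * (H483.ze K q k m ⬝ᵥ (K k m)⁻¹ *ᵥ H483.ze K q k m) :=
  sq_sqrt_inv_le h.l_pos.le (h.pdK k m) (h.psG k m) (h.sq k m) _

/-- The labelled function of the gap part of the flow, at time `k` and middle cell `m`. -/
def FZ (l : ℝ) (e : κ → ℤ) (A : ℕ → ℤ → ℤ → ℝ) (b : ℕ → ℤ → ℤ → κ → ℝ)
    (K : ℤ → ℕ → ℤ → Matrix κ κ ℝ) (k : ℕ) (m : ℤ) : ℤ → ℤ → ℤ → ℝ :=
  fun lab z x => hs k x * 2 ^ k * cu e (sz l (K x) (qK (A k) (b k) z x) k m) lab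

/-- The matrix of the node for `H609.region1_lab`. -/
def WZ (L : ℕ) (l : ℝ) (e : κ → ℤ) (A : ℕ → ℤ → ℤ → ℝ) (b : ℕ → ℤ → ℤ → κ → ℝ)
    (K : ℤ → ℕ → ℤ → Matrix κ κ ℝ) : (k' : ℕ) → Pt → Matrix (Ix k') (Ix k') ℝ :=
  WF L (FZ l e A b K)

variable {L : ℕ} {e : κ → ℤ} {l : ℝ} {A : ℕ → ℤ → ℤ → ℝ} {b : ℕ → ℤ → ℤ → κ → ℝ}
  {K : ℤ → ℕ → ℤ → Matrix κ κ ℝ}

/-- Hilbert-Schmidt norm of the node. -/
theorem WZ_tr (he : Function.Injective e) (hm : ∀ i, e i ∈ lbs L) (k : ℕ) (m : Pt) :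
    (4 ^ (k + L) : ℝ)⁻¹ * (WZ L l e A b K (k + L) m * (WZ L l e A b K (k + L) m)ᵀ).trace =
      (4 ^ L : ℝ)⁻¹ * ∑ z ∈ iv k m.1, ∑ x ∈ iv k m.2.2,
        sz l (K x) (qK (A k) (b k) z x) k m.2.1 ⬝ᵥ sz l (K x) (qK (A k) (b k) z x) k m.2.1 := by
  unfold WZ
  rw [WF_tr]
  have h1 : ∀ z x : ℤ, ∑ lab ∈ lbs L, FZ l e A b K k m.2.1 lab z x ^ 2 =
      4 ^ k * (sz l (K x) (qK (A k) (b k) z x) k m.2.1 ⬝ᵥ
        sz l (K x) (qK (A k) (b k) z x) k m.2.1) := by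
    intro z x
    unfold FZ
    have h2 : ∀ u : ℝ, (hs k x * 2 ^ k * u) ^ 2 = 4 ^ k * (u * u) := fun u => by
      have h3 := hs_mul_self k x
      have h4 : (4 : ℝ) ^ k = 2 ^ k * 2 ^ k := by rw [← mul_pow]; norm_num
      rw [h4]
      calc (hs k x * 2 ^ k * u) ^ 2 = (hs k x * hs k x) * (2 ^ k * 2 ^ k * (u * u)) := by ring
        _ = _ := by rw [h3, one_mul]
    simp only [h2]
    rw [← mul_sum, sum_cu_cu he hm]
    rfl
  simp only [h1, ← mul_sum]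
  rw [← mul_assoc, pow_add, mul_inv]
  have h3 : (4 : ℝ) ^ k ≠ 0 := by positivity
  congr 1
  field_simp

/-- The node is at most `√l` times the gap. -/
theorem WZ_le {N : ℕ} {G : ℤ → ℕ → ℤ → Matrix κ κ ℝ} (h : ∀ x, H420.Tr l N (G x) (K x))
    (he : Function.Injective e) (hm : ∀ i, e i ∈ lbs L) (k : ℕ) (m : Pt) :
    (4 ^ (k + L) : ℝ)⁻¹ * (WZ L l e A b K (k + L) m * (WZ L l e A b K (k + L) m)ᵀ).trace ≤
      (4 ^ L : ℝ)⁻¹ * √l * ∑ z ∈ iv k m.1, ∑ x ∈ iv k m.2.2,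
        H483.ze (K x) (qK (A k) (b k) z x) k m.2.1 ⬝ᵥ (K x k m.2.1)⁻¹ *ᵥ
          H483.ze (K x) (qK (A k) (b k) z x) k m.2.1 := by
  rw [WZ_tr he hm, mul_assoc]
  refine mul_le_mul_of_nonneg_left ?_ (by positivity)
  rw [mul_sum]
  refine sum_le_sum fun z _ => ?_
  rw [mul_sum]
  exact sum_le_sum fun x _ => sz_le (h x) _ k _

/-- **The trace form of `H609.region1_lab`** for the matrix `WZ` and a vector function `C`. -/
theorem WZ_form (he : Function.Injective e) (hm : ∀ i, e i ∈ lbs L) {k : ℕ} (hk : 1 ≤ k)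
    (C : ℤ → ℤ → κ → ℝ) (m : Pt) :
    (2 ^ (k + L) : ℝ)⁻¹ * (WZ L l e A b K (k + L) m * hd (k + L) *
        bl (k + L) (encR L fun lab z x => cu e (C z x) lab) m.1 m.2.2).trace =
      ∑ z ∈ iv k m.1, ∑ x ∈ iv k m.2.2,
        hs k z * hs k x * (sz l (K x) (qK (A k) (b k) z x) k m.2.1 ⬝ᵥ C z x) := by
  unfold WZ
  rw [WF_form L hk]
  have h1 : ∀ z x : ℤ, hs k z * ∑ lab ∈ lbs L, FZ l e A b K k m.2.1 lab z x * cu e (C z x) lab =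
      2 ^ k * (hs k z * hs k x * (sz l (K x) (qK (A k) (b k) z x) k m.2.1 ⬝ᵥ C z x)) := by
    intro z x
    unfold FZ
    simp only [mul_assoc]
    rw [← mul_sum, ← mul_sum, sum_cu_cu he hm]
    change _ * (_ * (_ * (sz l (K x) (qK (A k) (b k) z x) k m.2.1 ⬝ᵥ C z x))) = _
    ring
  simp only [h1, ← mul_sum]
  rw [← mul_assoc, inv_mul_cancel₀ (by positivity), one_mul]

/-! ### sums over the nodes -/

/-- One scale: nodes on the plane. -/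
theorem WZ_scale {N : ℕ} {G : ℤ → ℕ → ℤ → Matrix κ κ ℝ} (h : ∀ x, H420.Tr l N (G x) (K x))
    (he : Function.Injective e) (hm : ∀ i, e i ∈ lbs L) {R : Pt} {k : ℕ} {c : ℤ} {s : Finset Pt}
    (hs : s ⊆ bx3 N R k c) :
    ∑ m ∈ s, (4 ^ (k + L) : ℝ)⁻¹ *
        (WZ L l e A b K (k + L) m * (WZ L l e A b K (k + L) m)ᵀ).trace ≤
      (4 ^ L : ℝ)⁻¹ * √l * GW N R.1 R.2.1 R.2.2 k c (gK (A k) (b k) K k) := by
  have h0 : ∀ m : Pt, 0 ≤ ∑ z ∈ iv k m.1, ∑ x ∈ iv k m.2.2,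
        H483.ze (K x) (qK (A k) (b k) z x) k m.2.1 ⬝ᵥ (K x k m.2.1)⁻¹ *ᵥ
          H483.ze (K x) (qK (A k) (b k) z x) k m.2.1 := fun m =>
    sum_nonneg fun z _ => sum_nonneg fun x _ =>
      H420.quad_nonneg ((h x).pdK k m.2.1).inv.posSemidef _
  refine (sum_le_sum fun m _ => WZ_le h he hm k m).trans ?_
  rw [← mul_sum, GW_gK]
  refine mul_le_mul_of_nonneg_left ?_ (by positivity)
  refine (sum_le_sum_of_subset_of_nonneg hs fun m _ _ => h0 m).trans (le_of_eq ?_)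
  rw [sum_bx3_21]

/-- **E2.5**: the hypothesis `hw` of `H609.region1_lab` for the matrix `WZ`, one plane. -/
theorem WZ_sum {N : ℕ} {G : ℤ → ℕ → ℤ → Matrix κ κ ℝ} (h : ∀ x, H420.Tr l N (G x) (K x))
    (he : Function.Injective e) (hm : ∀ i, e i ∈ lbs L) {R : Pt} {c : ℕ → ℤ}
    {s : ℕ → Finset Pt} (hs : ∀ k ∈ Icc 1 N, s k ⊆ bx3 N R k (c k)) :
    ∑ k ∈ Icc 1 N, ∑ m ∈ s k, (4 ^ (k + L) : ℝ)⁻¹ *
        (WZ L l e A b K (k + L) m * (WZ L l e A b K (k + L) m)ᵀ).trace ≤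
      (4 ^ L : ℝ)⁻¹ * √l *
        ∑ k ∈ range N, GW N R.1 R.2.1 R.2.2 (k + 1) (c (k + 1))
          (gK (A (k + 1)) (b (k + 1)) K (k + 1)) := by
  have e1 : ∑ k ∈ range N, GW N R.1 R.2.1 R.2.2 (k + 1) (c (k + 1))
      (gK (A (k + 1)) (b (k + 1)) K (k + 1)) =
      ∑ k ∈ Icc 1 N, GW N R.1 R.2.1 R.2.2 k (c k) (gK (A k) (b k) K k) := by
    rw [range_eq_Ico, sum_Ico_add' (fun k => GW N R.1 R.2.1 R.2.2 k (c k) (gK (A k) (b k) K k))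
      0 N 1]
    rfl
  rw [e1, mul_sum]
  exact sum_le_sum fun k hk => WZ_scale h he hm (hs k hk)

end vec

/-! ### the sum over `x₀` -/

section cube

variable {κ : Type*} [Fintype κ] [DecidableEq κ] {l : ℝ} {N : ℕ}
  {G K : ℤ → ℕ → ℤ → Matrix κ κ ℝ} {R S T t₀ : ℤ} {c : ℤ → ℕ → ℤ}
  {A : ℤ → ℕ → ℤ → ℤ → ℝ} {b : ℤ → ℕ → ℤ → ℤ → κ → ℝ} {qA qB : ℕ → ℤ → ℤ → ℤ → Prop}

/-- The facts on a pair of families indexed by `x₀` which pay the weighted gap: `A x₀ k`,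
`b x₀ k` are the functions of the time `k`. -/
structure GapFam (l : ℝ) (N : ℕ) (G K : ℤ → ℕ → ℤ → Matrix κ κ ℝ) (R S T t₀ : ℤ)
    (A : ℤ → ℕ → ℤ → ℤ → ℝ) (b : ℤ → ℕ → ℤ → ℤ → κ → ℝ) (qA qB : ℕ → ℤ → ℤ → ℤ → Prop)
    (gA gB cP : ℝ) : Prop where
  tr : ∀ x, H420.Tr l N (G x) (K x)
  agA : ∀ x₀ k, k < N → ∀ n ∈ iv (N - k) R, ∀ m ∈ iv (N - k) S, ¬ qA k (ix k x₀) n m →
    PA (A x₀ (k + 1)) k k n m = PA (A x₀ k) k k n m
  agB : ∀ x₀ k, k < N → ∀ n ∈ iv (N - k) T, ∀ m ∈ iv (N - k) S, ¬ qB k (ix k x₀) n m →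
    QK (b x₀ (k + 1)) K k k n m = QK (b x₀ k) K k k n m
  zA : ∀ x₀ n m, PA (A x₀ 0) 0 0 n m = 0
  zB : ∀ x₀ n m, QK (b x₀ 0) K 0 0 n m = 0
  gA0 : 0 < gA
  gB0 : 0 < gB
  capA : ∀ k < N, ∀ i ∈ iv (N - k) t₀, ∀ n ∈ iv (N - k) R, ∀ m ∈ iv (N - k) S,
    ∑ x₀ ∈ iv k i, S2 (PA (A x₀ (k + 1)) k k n m) ≤ gA * 2 ^ k
  capB : ∀ k < N, ∀ i ∈ iv (N - k) t₀, ∀ n ∈ iv (N - k) T, ∀ m ∈ iv (N - k) S,
    ∑ x₀ ∈ iv k i, S2 (QK (b x₀ (k + 1)) K k k n m) ≤ gB * 2 ^ k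
  packA : ∀ x₀ ∈ iv N t₀, ∑ k ∈ range N, cnt N R S k (qA k (ix k x₀)) ≤ cP * 4 ^ N
  packB : ∀ x₀ ∈ iv N t₀, ∑ k ∈ range N, cnt N T S k (qB k (ix k x₀)) ≤ cP * 4 ^ N

variable {gA gB cP : ℝ}

/-- **E2**: the weighted gaps of all scales and all nodes, summed over `x₀`. -/
theorem GapFam.gap (f : GapFam l N G K R S T t₀ A b qA qB gA gB cP) (hc : ∀ x, Pl (c x))
    (hcl : ∀ k x y, ix k x = ix k y → c x k = c y k) :
    ∑ x₀ ∈ iv N t₀, ∑ k ∈ range N, GW N R S T (k + 1) (c x₀ (k + 1))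
        (gK (A x₀ (k + 1)) (b x₀ (k + 1)) K (k + 1)) ≤
      146 * √(gA * gB) * (cP * 8 ^ N) :=
  gapSum hc hcl (P := fun x₀ k => PA (A x₀ k) k) (P' := fun x₀ k => PA (A x₀ (k + 1)) k)
    (Q := fun x₀ k => QK (b x₀ k) K k) (Q' := fun x₀ k => QK (b x₀ (k + 1)) K k)
    (g := fun x₀ k => gK (A x₀ (k + 1)) (b x₀ (k + 1)) K (k + 1))
    (fun _ k _ => PA_out N k _) (fun _ k _ => QK_out N k _ K) (fun _ k _ => PA_out N k _)
    (fun _ k _ => QK_out N k _ K) (fun _ k a n m => PA_psd _ k a n m)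
    (fun _ k a n m => QK_psd f.tr _ k a n m) (fun _ k a n m => PA_psd _ k a n m)
    (fun _ k a n m => QK_psd f.tr _ k a n m) f.agA f.agB
    (fun _ _ hk n n' m => PQ_mid f.tr hk _ _ n n' m)
    (fun _ _ hk a _ _ => PA_own hk R S _ a) (fun _ _ hk a _ _ => QK_own f.tr hk T S _ a)
    f.zA f.zB f.gA0 f.gB0 f.capA f.capB f.packA f.packB

/-- **E2.5**: the sum over `x₀` of the hypothesis `hw` of `H609.region1_lab`. -/
theorem GapFam.w {L : ℕ} {e : κ → ℤ} (he : Function.Injective e) (hm : ∀ i, e i ∈ lbs L)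
    {R : Pt} (f : GapFam l N G K R.1 R.2.1 R.2.2 t₀ A b qA qB gA gB cP) (hc : ∀ x, Pl (c x))
    (hcl : ∀ k x y, ix k x = ix k y → c x k = c y k) {s : ℤ → ℕ → Finset Pt}
    (hs : ∀ x₀ ∈ iv N t₀, ∀ k ∈ Icc 1 N, s x₀ k ⊆ bx3 N R k (c x₀ k)) :
    ∑ x₀ ∈ iv N t₀, ∑ k ∈ Icc 1 N, ∑ m ∈ s x₀ k, (4 ^ (k + L) : ℝ)⁻¹ *
        (WZ L l e (A x₀) (b x₀) K (k + L) m * (WZ L l e (A x₀) (b x₀) K (k + L) m)ᵀ).trace ≤
      (4 ^ L : ℝ)⁻¹ * (√l * (146 * √(gA * gB) * (cP * 8 ^ N))) := by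
  refine (sum_le_sum fun x₀ hx => WZ_sum f.tr he hm (hs x₀ hx)).trans ?_
  rw [← mul_sum, mul_assoc]
  exact mul_le_mul_of_nonneg_left (mul_le_mul_of_nonneg_left (f.gap hc hcl)
    (Real.sqrt_nonneg _)) (by positivity)

end cube

end

end Vale.Agent.P141.H576
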