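import Vale.Agent.P141.H576.MkZ2
import Vale.Agent.P141.H331.SkelTZ

/-!
# P141, line (A), gap part: the field `ZGap` of the definite families

`mkT_gap : MkT ZGap`, from `gapQ`, `GapFam.w`, `gapN_num`, `unit_num`.
-/

namespace Vale.Agent.P141.H576

open Finset Matrix Vale.Agent.P075 Vale.Agent.P141.PL
open Vale.Agent.P141.H677
open Vale.Agent.P141.H401 (PartQ PartY)
open Vale.Agent.P141.H331 (MkT ZGap lsz)

noncomputable section

open scoped Classical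

/-- the loss is at least one -/
theorem one_le_lsz {p : H401.Num} (ht : 0 < p.t) (ht1 : p.t ≤ 1) (hc : 0 ≤ p.c) (hd : 0 ≤ p.d) :
    1 ≤ lsz p :=
  Real.one_le_rpow_of_pos_of_le_one_of_nonpos ht ht1 (by linarith)

/-- **Leaf `MkT ZGap`.** -/
theorem mkT_gap : MkT ZGap := by
  unfold MkT PartQ PartY
  intro a ha ha1
  refine ⟨a / 10, by positivity, fun e0 he0 he0' => ⟨1, one_pos, fun k8 _ _ => ⟨1, one_pos,
    fun k3 _ _ => ⟨1, e0 / 100, e0 / 100, 1, one_pos, by positivity, by positivity, one_pos,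
    fun c hc hcc d hd hdd Kt e cP L hKt he hcP hL => ?_⟩⟩⟩⟩
  obtain ⟨CA, CB, h1, h2, H⟩ := gapQ ha1 he0 he0' hcc hd hdd hKt he hcP hL
  set C0 : ℝ := 146 * √(CA * CB) * (cP + 2) with hC0
  have hC00 : 0 ≤ C0 := by positivity
  refine ⟨max 1 C0, le_max_left _ _, 0, le_rfl, ?_⟩
  intro t ht ht1 n ez F1 F2 F3 f1 f3 f2 o ho K hK x ι _ _ s r U g u v hs hr hcl Q1 Q2 Q3 q1 q2 q3
    hez L' w hw hm t₀ ht₀
  have f := H k8 k3 (max 1 C0) t ht ht1 n F1 F3 Q1 Q3 f1 q1 f3 q3 K hK x ι s r _ U g u v hs hr hcl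
    t₀
  have k1 := f.w hw hm (c := fun x₀ => H677.cP o x₀) (fun x₀ => cP_pl ho x₀)
    (fun k x y h => cP_ix o h) (s := fun x₀ k => sN (H401.Num.al
      ⟨a, e0, k8, k3, c, d, Kt, e, cP, L, max 1 C0, t⟩ U K) o K (PL.cx K x) x₀ k)
    (fun x₀ _ k _ => sN_sub _ o K (PL.cx K x) x₀ k)
  have k2 := gapN_num (CA := CA) (CB := CB) (t := t) (s := s) (r := r) (cP := cP + 2) he0 hcc hdd h1
    h2 ht ht1 hs hr (by linarith) K
  have k3' := unit_num (e₀ := e0) he0 ht hs hr K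
  unfold H331.ZGap
  refine k1.trans (mul_le_mul_of_nonneg_left (k2.trans ?_) (by positivity))
  have hr0 : 0 < r := by linarith
  have hu : 0 ≤ (t * s ^ (1 / 4 : ℝ)) ^ 2 * (s * 8 ^ K) * (t / r) ^ (e0 / 10) := by
    have := Real.rpow_nonneg (div_pos ht hr0).le (e0 / 10)
    positivity
  have e2 : s ^ (3 / 2 : ℝ) = (s ^ (1 / 4 : ℝ)) ^ 2 * s := by
    rw [← Real.rpow_natCast (s ^ (1 / 4 : ℝ)), ← Real.rpow_mul hs.le]
    nth_rewrite 3 [← Real.rpow_one s]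
    rw [← Real.rpow_add hs]
    norm_num
  have hl := one_le_lsz (p := ⟨a, e0, k8, k3, c, d, Kt, e, cP, L, max 1 C0, t⟩) ht ht1 hc hd.le
  set lz := lsz ⟨a, e0, k8, k3, c, d, Kt, e, cP, L, max 1 C0, t⟩ with hlz
  calc C0 * (t ^ (2 + e0 / 10) * s ^ (3 / 2 : ℝ) * r ^ (-(e0 / 8)) * 8 ^ K) ≤
      C0 * ((t * s ^ (1 / 4 : ℝ)) ^ 2 * (s * 8 ^ K) * (t / r) ^ (e0 / 10)) :=
        mul_le_mul_of_nonneg_left k3' hC00
    _ ≤ max 1 C0 * (lz * ((t * s ^ (1 / 4 : ℝ)) ^ 2 * (s * 8 ^ K) * (t / r) ^ (e0 / 10))) :=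
        mul_le_mul (le_max_right _ _) (le_mul_of_one_le_left hu hl) hu
          (zero_le_one.trans (le_max_left _ _))
    _ = _ := by
        rw [Real.rpow_two, e2]
        ring

end

end Vale.Agent.P141.H576
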