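import Vale.Agent.P141.H576.GapI
import Vale.Agent.P141.H205.SUse

/-!
# P141, line (A), [T5]: the gap family of statically cut paths

`SubPath Q F F'` : `F'` is a path with the affected squares `Q`, `0` at time `0`, and on an
affected square the weighted Gram matrices of `F'` are smaller in the square trace than those of
`F` (a cut of `F` at the squares where its static regions end).

* `QK_quad` : the square trace at a square is at most the mean of the four children;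
* `cap_up` : a cap on the affected squares is a cap on all squares;
* `GapFam.of_sub` : `GapFam` for cut families, same numbers;
* `low_sub` : the spectral cut of `H205`.
-/

namespace Vale.Agent.P141.H576

open Finset Matrix Vale.Agent.P075 Vale.Agent.P141.PL
open Vale.Agent.P141.H103 (PA QK QW QW_symm QK_congr QK_zero PA_eq un QK_own_pt QK_out tr_one)
open Vale.Agent.P141.H588G (S2 S2_nonneg)

noncomputable section

variable {κ : Type*} [Fintype κ]

/-! ### The cap on all squares -/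

theorem S2_half {ι : Type*} [Fintype ι] {X Y : Matrix ι ι ℝ} (hX : Xᵀ = X) (hY : Yᵀ = Y) :
    S2 ((1 / 2 : ℝ) • (X + Y)) ≤ 1 / 2 * (S2 X + S2 Y) := by
  have h : 0 ≤ S2 (X - Y) := S2_nonneg (by rw [transpose_sub, hX, hY])
  unfold S2 at *
  rw [Matrix.smul_mul, Matrix.mul_smul, trace_smul, trace_smul, smul_eq_mul, smul_eq_mul]
  have e1 : ((X + Y) * (X + Y)).trace = (X * X).trace + (Y * Y).trace + 2 * (X * Y).trace := by
    rw [Matrix.add_mul, Matrix.mul_add, Matrix.mul_add, trace_add, trace_add, trace_add,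
      trace_mul_comm Y X]
    ring
  have e2 : ((X - Y) * (X - Y)).trace = (X * X).trace + (Y * Y).trace - 2 * (X * Y).trace := by
    rw [Matrix.sub_mul, Matrix.mul_sub, Matrix.mul_sub, trace_sub, trace_sub, trace_sub,
      trace_mul_comm Y X]
    ring
  rw [e1]
  rw [e2] at h
  nlinarith

variable [DecidableEq κ]

theorem QK_symm {l : ℝ} {N : ℕ} {G K : ℤ → ℕ → ℤ → Matrix κ κ ℝ}
    (h : ∀ x, H420.Tr l N (G x) (K x)) (b : ℤ → ℤ → κ → ℝ) (k a : ℕ) (n m : ℤ) :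
    (QK b K k a n m)ᵀ = QK b K k a n m := by
  refine QW_symm (fun x => ?_) n m
  have h1 : (K x k m)ᵀ = K x k m := by
    have := ((h x).pdK k m).isHermitian
    rwa [IsHermitian, conjTranspose_eq_transpose_of_trivial] at this
  rw [transpose_nonsing_inv, h1]

/-- **The square trace at a square and at its four children.** -/
theorem QK_quad {l : ℝ} {N : ℕ} {G K : ℤ → ℕ → ℤ → Matrix κ κ ℝ}
    (h : ∀ x, H420.Tr l N (G x) (K x)) {k : ℕ} (hk : k < N) (b : ℤ → ℤ → κ → ℝ) (n m : ℤ) :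
    S2 (QK b K (k + 1) (k + 1) n m) ≤ 1 / 4 *
      ((S2 (QK b K k k (2 * n) (2 * m)) + S2 (QK b K k k (2 * n + 1) (2 * m))) +
        (S2 (QK b K k k (2 * n) (2 * m + 1)) + S2 (QK b K k k (2 * n + 1) (2 * m + 1)))) := by
  have h1 : S2 (QK b K (k + 1) (k + 1) n m) ≤ 1 / 2 * (S2 (QK b K k (k + 1) n (2 * m)) +
      S2 (QK b K k (k + 1) n (2 * m + 1))) := QK_own_pt h hk b (k + 1) n m
  have h2 : ∀ m', S2 (QK b K k (k + 1) n m') ≤ 1 / 2 * (S2 (QK b K k k (2 * n) m') +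
      S2 (QK b K k k (2 * n + 1) m')) := by
    intro m'
    rw [QK_out N k b K k le_rfl hk n m']
    exact S2_half (QK_symm h b k k _ _) (QK_symm h b k k _ _)
  have h3 := h2 (2 * m)
  have h4 := h2 (2 * m + 1)
  linarith

omit κ in
theorem mem_two {N k : ℕ} (hk : k + 1 ≤ N) {R n : ℤ} (h : n ∈ iv (N - (k + 1)) R) :
    2 * n ∈ iv (N - k) R ∧ 2 * n + 1 ∈ iv (N - k) R := by
  have e : N - k = 1 + (N - (k + 1)) := by omega
  rw [mem_iv] at h
  rw [mem_iv, mem_iv, e, ← ix_ix, ← ix_ix]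
  have e1 : ix 1 (2 * n) = n := by
    unfold ix
    omega
  have e2 : ix 1 (2 * n + 1) = n := by
    unfold ix
    omega
  rw [e1, e2]
  exact ⟨h, h⟩

/-- **A cap on the affected squares is a cap on all squares.** -/
theorem cap_up {N : ℕ} {R S t₀ : ℤ} {q : ℕ → ℤ → ℤ → ℤ → Prop} {s : ℤ → ℕ → ℤ → ℤ → ℝ} {γ : ℝ}
    (q0 : ∀ i n m, q 0 i n m)
    (aff : ∀ k < N, ∀ i ∈ iv (N - k) t₀, ∀ n ∈ iv (N - k) R, ∀ m ∈ iv (N - k) S, q k i n m →
      ∑ x ∈ iv k i, s x k n m ≤ γ * 2 ^ k)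
    (step : ∀ x k, k + 1 < N → ∀ n ∈ iv (N - (k + 1)) R, ∀ m ∈ iv (N - (k + 1)) S,
      ¬ q (k + 1) (ix (k + 1) x) n m → s x (k + 1) n m ≤ 1 / 4 *
        ((s x k (2 * n) (2 * m) + s x k (2 * n + 1) (2 * m)) +
          (s x k (2 * n) (2 * m + 1) + s x k (2 * n + 1) (2 * m + 1)))) :
    ∀ k < N, ∀ i ∈ iv (N - k) t₀, ∀ n ∈ iv (N - k) R, ∀ m ∈ iv (N - k) S,
      ∑ x ∈ iv k i, s x k n m ≤ γ * 2 ^ k := by
  intro k
  induction k with
  | zero => exact fun h i hi n hn m hm => aff 0 h i hi n hn m hm (q0 i n m)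
  | succ k ih =>
    intro hk i hi n hn m hm
    by_cases hq : q (k + 1) i n m
    · exact aff (k + 1) hk i hi n hn m hm hq
    · have h1 : ∑ x ∈ iv (k + 1) i, s x (k + 1) n m ≤ ∑ x ∈ iv (k + 1) i, 1 / 4 *
          ((s x k (2 * n) (2 * m) + s x k (2 * n + 1) (2 * m)) +
            (s x k (2 * n) (2 * m + 1) + s x k (2 * n + 1) (2 * m + 1))) := by
        refine sum_le_sum fun x hx => step x k hk n hn m hm ?_
        rwa [mem_iv.1 hx]
      refine h1.trans ?_
      rw [← mul_sum, H677.sum_halves]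
      simp only [sum_add_distrib]
      obtain ⟨i1, i2⟩ := mem_two hk.le hi
      obtain ⟨n1, n2⟩ := mem_two hk.le hn
      obtain ⟨m1, m2⟩ := mem_two hk.le hm
      have hk' : k < N := by omega
      have a1 := ih hk' _ i1 _ n1 _ m1
      have a2 := ih hk' _ i1 _ n2 _ m1
      have a3 := ih hk' _ i1 _ n1 _ m2
      have a4 := ih hk' _ i1 _ n2 _ m2
      have b1 := ih hk' _ i2 _ n1 _ m1
      have b2 := ih hk' _ i2 _ n2 _ m1
      have b3 := ih hk' _ i2 _ n1 _ m2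
      have b4 := ih hk' _ i2 _ n2 _ m2
      rw [pow_succ]
      linarith

/-! ### Cut paths -/

/-- a static cut of the path `F` -/
structure SubPath (Q : ℕ → ℤ → ℤ → Prop) (F F' : ℕ → ℤ → ℤ → κ → ℝ) : Prop where
  zero : F' 0 = 0
  off : ∀ k n m x y, ¬ Q k n m → x ∈ iv k n → y ∈ iv k m → F' (k + 1) x y = F' k x y
  on : ∀ k n m, Q k n m → ∀ M : ℤ → Matrix κ κ ℝ, (∀ x, (M x)ᵀ = M x) →
    S2 (QW k k (F' (k + 1)) M n m) ≤ S2 (QW k k (F (k + 1)) M n m)

omit [DecidableEq κ] in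
theorem SubPath.trans {Q : ℕ → ℤ → ℤ → Prop} {F F' F'' : ℕ → ℤ → ℤ → κ → ℝ}
    (h : SubPath Q F F') (h' : SubPath Q F' F'') : SubPath Q F F'' :=
  ⟨h'.zero, h'.off, fun k n m hQ M hM => (h'.on k n m hQ M hM).trans (h.on k n m hQ M hM)⟩

omit [DecidableEq κ] in
/-- the spectral cut of `H205` -/
theorem low_sub (Q : ℕ → ℤ → ℤ → Prop) (c : ℝ) (F : ℕ → ℤ → ℤ → κ → ℝ) :
    SubPath Q F (H205.lowF Q c F) :=
  ⟨H205.lowF_zero, fun _ _ _ _ _ hQ hx hy => H205.lowF_off hQ hx hy,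
    fun _ _ _ hQ _ hM => H205.QW_low_le hQ hM⟩

omit [DecidableEq κ] in
/-- a path itself -/
theorem SubPath.refl {Q : ℕ → ℤ → ℤ → Prop} {F : ℕ → ℤ → ℤ → κ → ℝ} (h0 : F 0 = 0)
    (h : ∀ k n m x y, ¬ Q k n m → x ∈ iv k n → y ∈ iv k m → F (k + 1) x y = F k x y) :
    SubPath Q F F :=
  ⟨h0, h, fun _ _ _ _ _ _ => le_rfl⟩

variable {l : ℝ} {N : ℕ} {G K : ℤ → ℕ → ℤ → Matrix κ κ ℝ} {R S T t₀ : ℤ}
  {A A' : ℤ → ℕ → ℤ → ℤ → ℝ} {b b' : ℤ → ℕ → ℤ → ℤ → κ → ℝ} {qA qB : ℕ → ℤ → ℤ → ℤ → Prop}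
  {gA gB cP : ℝ}

/-- one side -/
theorem cap_sub (h : ∀ x, H420.Tr l N (G x) (K x)) {q : ℕ → ℤ → ℤ → ℤ → Prop} {γ : ℝ}
    (q0 : ∀ i n m, q 0 i n m)
    (hS : ∀ x₀, SubPath (fun k n m => q k (ix k x₀) n m) (b x₀) (b' x₀))
    (cap : ∀ k < N, ∀ i ∈ iv (N - k) t₀, ∀ n ∈ iv (N - k) R, ∀ m ∈ iv (N - k) S,
      ∑ x₀ ∈ iv k i, S2 (QK (b x₀ (k + 1)) K k k n m) ≤ γ * 2 ^ k) :
    ∀ k < N, ∀ i ∈ iv (N - k) t₀, ∀ n ∈ iv (N - k) R, ∀ m ∈ iv (N - k) S,
      ∑ x₀ ∈ iv k i, S2 (QK (b' x₀ (k + 1)) K k k n m) ≤ γ * 2 ^ k := by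
  refine cap_up (q := q) (s := fun x₀ k n m => S2 (QK (b' x₀ (k + 1)) K k k n m)) q0
    (fun k hk i hi n hn m hm hq => ?_) (fun x₀ k hk n hn m hm hq => ?_)
  · refine (sum_le_sum fun x₀ hx => ?_).trans (cap k hk i hi n hn m hm)
    refine (hS x₀).on k n m ?_ _ fun x => ?_
    · show q k (ix k x₀) n m
      rwa [mem_iv.1 hx]
    · have h1 : (K x k m)ᵀ = K x k m := by
        have := ((h x).pdK k m).isHermitian
        rwa [IsHermitian, conjTranspose_eq_transpose_of_trivial] at this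
      rw [transpose_nonsing_inv, h1]
  · have e : QK (b' x₀ (k + 1 + 1)) K (k + 1) (k + 1) n m =
        QK (b' x₀ (k + 1)) K (k + 1) (k + 1) n m :=
      QK_congr K fun x hx y hy => (hS x₀).off (k + 1) n m x y hq hx hy
    show S2 (QK (b' x₀ (k + 1 + 1)) K (k + 1) (k + 1) n m) ≤ _
    rw [e]
    exact QK_quad h (by omega) _ n m

/-- **The gap family of cut paths**, same numbers. -/
theorem GapFam.of_sub (f : GapFam l N G K R S T t₀ A b qA qB gA gB cP)
    (qA0 : ∀ i n m, qA 0 i n m) (qB0 : ∀ i n m, qB 0 i n m)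
    (hA : ∀ x₀, SubPath (fun k n m => qA k (ix k x₀) n m) (fun k => un (A x₀ k))
      fun k => un (A' x₀ k))
    (hB : ∀ x₀, SubPath (fun k n m => qB k (ix k x₀) n m) (b x₀) (b' x₀)) :
    GapFam l N G K R S T t₀ A' b' qA qB gA gB cP :=
  { f with
    agA := fun x₀ k _ n _ m _ hq => by
      rw [PA_eq, PA_eq]
      exact QK_congr _ fun x hx y hy => (hA x₀).off k n m x y hq hx hy
    agB := fun x₀ k _ n _ m _ hq => QK_congr K fun x hx y hy => (hB x₀).off k n m x y hq hx hy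
    zA := fun x₀ n m => by
      rw [PA_eq]
      have h0 : un (A' x₀ 0) = 0 := (hA x₀).zero
      rw [h0]
      exact QK_zero _ 0 0 n m
    zB := fun x₀ n m => by
      rw [(hB x₀).zero]
      exact QK_zero _ 0 0 n m
    capA := by
      have h := cap_sub (l := 1) (N := N) (G := fun _ _ _ => (0 : Matrix Unit Unit ℝ))
        (K := fun _ _ _ => (1 : Matrix Unit Unit ℝ)) (R := R) (S := S) (t₀ := t₀) (q := qA)
        (b := fun x₀ k => un (A x₀ k)) (b' := fun x₀ k => un (A' x₀ k)) (γ := gA)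
        (fun _ => tr_one N) qA0 hA (fun k hk i hi n hn m hm => by
          have := f.capA k hk i hi n hn m hm
          simpa only [PA_eq] using this)
      intro k hk i hi n hn m hm
      have := h k hk i hi n hn m hm
      simpa only [PA_eq] using this
    capB := cap_sub f.tr qB0 hB f.capB }

/-- **The gap family of the spectral cuts** of `H205`, then a further cut `b'` of the cut `b`. -/
theorem GapFam.low (f : GapFam l N G K R S T t₀ A b qA qB gA gB cP)
    (qA0 : ∀ i n m, qA 0 i n m) (qB0 : ∀ i n m, qB 0 i n m) (cA cB : ℝ)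
    (hB : ∀ x₀, SubPath (fun k n m => qB k (ix k x₀) n m)
      (H205.lowF (fun k n m => qB k (ix k x₀) n m) cB (b x₀)) (b' x₀)) :
    GapFam l N G K R S T t₀
      (fun x₀ => H205.low1 (fun k n m => qA k (ix k x₀) n m) cA (A x₀)) b' qA qB gA gB cP := by
  refine f.of_sub qA0 qB0 (fun x₀ => ?_) fun x₀ => (low_sub _ cB (b x₀)).trans (hB x₀)
  have h := low_sub (fun k n m => qA k (ix k x₀) n m) cA (fun k => un (A x₀ k))
  have e : (fun k => un (H205.low1 (fun k n m => qA k (ix k x₀) n m) cA (A x₀) k)) =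
      H205.lowF (fun k n m => qA k (ix k x₀) n m) cA (fun k => un (A x₀ k)) := by
    funext k
    exact H205.un_low1 k
  rw [e]
  exact h

/-- the affected squares of the killed inputs contain the points -/
theorem QD_zero (D : ℕ → ℤ → ℤ → Prop) (Q : ℕ → Pt → Prop) (i r s : ℤ) : QD D Q 0 i r s :=
  Or.inl rfl

end

end Vale.Agent.P141.H576
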