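import Vale.Agent.P141.H576.AffC1

/-!
# P141, line (A), increasing part: the births of the stack

`fBorn : H808.FBorn`.
-/

namespace Vale.Agent.P141.H576

open Finset Matrix
open Vale.Agent.P141.PL (Pt iv ix cb cx mem_iv mem_cb ix_ix)
open Vale.Agent.P141.PL.H315 (Tri)
open Vale.Agent.P141.H48 (US ES BSl sst)
open Vale.Agent.P141.H305 (Cls ClsM kapM)
open Vale.Agent.P141.H28.AffI (GP)
open Vale.Agent.P141.H677 (GT KT tr_T kF rt)
open Vale.Agent.P141.H505.Sk1 (Ch eT)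
open Vale.Agent.P141.H408 (beI)
open Vale.Agent.P141.H808 (wl thS cS FBorn)

noncomputable section

open scoped Classical

set_option linter.unusedVariables false

section pt

variable {ι : Type} [Fintype ι] [DecidableEq ι]

/-- the stack changes only on the affected squares -/
theorem ch_cS {p : H401.Num} {ez cP : ℝ} {U : Tri} {n K : ℕ} (hKn : K ≤ n)
    {v : ℤ → ℤ → ι → ℝ} {F2 : ℕ → Pt → ℝ} {Q2 : ℕ → Pt → Prop} (q2 : BSl n ez cP F2 Q2)
    (x0 : ℤ) {k : ℕ} (hk : k < K) {r s : ℤ} (h : Ch (cS p ez U K v F2 x0) k r s) :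
    QD (fun k x y => sst p.Lm U.2.1 K k x y) Q2 k (ix k x0) r s := by
  by_contra hQ
  obtain ⟨x, hx, z, hz, hne⟩ := h
  apply hne
  have e := agree_kD (Dd_sst p.Lm U.2.1 K) q2 (lt_of_lt_of_le hk hKn) (x0 := x0) hQ hx hz
  rw [kD_sst] at e
  rw [H808.cS_succ p ez U K v F2 x0 (show k + 1 ≤ K from hk) x z]
  have e2 : cS p ez U K v F2 x0 k x z = ((√ez)⁻¹ * kF p.Lm U.2.1 K F2 k (x0, x, z)) • v x z := by
    show H408.C1 p ez U K v F2 x0 (min k K) z x = _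
    rw [min_eq_left hk.le, mul_smul]
    rfl
  rw [e2, e]

/-- the energy of the stack at a point, time `k + 1`, scale `k` -/
theorem eT_cS {p : H401.Num} {s r ez : ℝ} (hez : 0 < ez) (o : ℤ) (K : ℕ) (x : Pt) (U : Tri)
    (u v : ℤ → ℤ → ι → ℝ) (F2 : ℕ → Pt → ℝ) (x0 : ℤ) {k : ℕ} (hk : k < K) (x1 z : ℤ) :
    eT (cS p ez U K v F2 x0 (k + 1)) (thS p s r o K x u x0) k x1 z =
      wl p ez U K F2 x1 z (k + 1) x0 *
        (v x1 z ⬝ᵥ thS p s r o K x u x0 x1 k (ix k z) *ᵥ v x1 z) := by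
  unfold H505.Sk1.eT
  rw [H808.cS_succ p ez U K v F2 x0 (show k + 1 ≤ K from hk) x1 z, H808.quad_smul, H808.q_sq hez]

/-- the packing of the affected squares of the stack -/
theorem gp_Q2 {p : H401.Num} {ez cP : ℝ} {U : Tri} {n K : ℕ} (hKn : K ≤ n) {F2 : ℕ → Pt → ℝ}
    {Q2 : ℕ → Pt → Prop} (q2 : BSl n ez cP F2 Q2) : GP (H8B.Q2F p U K Q2) K (cP + 2) :=
  GP.of_QPack fun x0 _ hk r s =>
    (H8B.qpack_QD (Dd_sst p.Lm U.2.1 K) q2) x0 _ (hk.trans hKn) r s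

end pt

/-- **The births of the stack.** -/
theorem fBorn : FBorn := by
  intro a ha ha1
  refine ⟨1, one_pos, fun e0 he0 he0' => ⟨1, one_pos, fun k8 _ _ => ⟨1, one_pos, fun k3 _ _ δ hδ =>
    ⟨δ / 2, δ, by positivity, hδ, fun c hc hcc d hd hdd Kt e cP L hK he hcP hL => ?_⟩⟩⟩⟩
  obtain ⟨C, hC, HC⟩ := aff_fin (e0 := e0) (L := L) (PG := cP + 2) (δ := δ) (c := c) (d := d) he0
    he0' (by linarith) (by linarith) hδ hc hcc hd hdd
  refine ⟨C, hC, ?_⟩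
  intro t ht ht1 n ez F1 F2 F3 h1 h3 h2 o ho K hKn x ι _ _ s r U g u v hs hr hcls Q1 Q2 Q3 q1 q2 q3
    hez
  set p : H401.Num := ⟨a, e0, k8, k3, c, d, Kt, e, cP, L, 1, t⟩ with hp
  have key := HC a k8 k3 Kt e cP t ht ht1 n ez cP F2 o K hKn x ι s r U g u v hs hr hcls.toCls Q2 q2
    hez (H8B.Q2F p U K Q2) (gp_Q2 hKn q2)
  refine le_trans ?_ key
  unfold affE
  refine sum_le_sum fun t _ => ?_
  have e1 : ∑ x0 ∈ iv K t, ∑ k ∈ Ico 0 K, ∑ x1 ∈ iv K (cx K x).1, ∑ z ∈ iv K (cx K x).2.2,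
      (if Ch (cS p ez U K v F2 x0) k (ix k x1) (ix k z) then
        eT (cS p ez U K v F2 x0 (k + 1)) (thS p s r o K x u x0) k x1 z else 0) =
      ∑ k ∈ range K, ∑ y ∈ cb K (t, (cx K x).1, (cx K x).2.2),
        (if Ch (cS p ez U K v F2 y.1) k (ix k y.2.1) (ix k y.2.2) then
          eT (cS p ez U K v F2 y.1 (k + 1)) (thS p s r o K x u y.1) k y.2.1 y.2.2 else 0) := by
    rw [← Finset.range_eq_Ico, sum_comm]
    refine sum_congr rfl fun k _ => ?_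
    unfold PL.cb
    rw [sum_product]
    simp only [sum_product]
  refine e1.le.trans ?_
  refine sum_le_sum fun k hk => sum_le_sum fun y _ => ?_
  have hk' : k < K := mem_range.1 hk
  have hn : 0 ≤ wl p ez U K F2 y.2.1 y.2.2 (k + 1) y.1 *
      (v y.2.1 y.2.2 ⬝ᵥ thS p s r o K x u y.1 y.2.1 k (ix k y.2.2) *ᵥ v y.2.1 y.2.2) :=
    mul_nonneg (H808.wl_nonneg hez U K F2 y.2.1 y.2.2 (k + 1) y.1)
      (H808.form_nonneg (H808.thS_pd ht hs hr o K x u y.1 y.2.1 k (ix k y.2.2)).posSemidef _)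
  by_cases hc : Ch (cS p ez U K v F2 y.1) k (ix k y.2.1) (ix k y.2.2)
  · have ha : H8B.Q2F p U K Q2 k (cx k y) := ch_cS hKn q2 y.1 hk' hc
    rw [if_pos hc, if_pos ha, eT_cS hez o K x U u v F2 y.1 hk' y.2.1 y.2.2]
  · rw [if_neg hc]
    split_ifs
    · exact hn
    · exact le_rfl

end

end Vale.Agent.P141.H576
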