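import Vale.Agent.P141.H28.AffI
import Vale.Agent.P141.H28.AffP
import Vale.Agent.P141.H215.CapC
import Vale.Agent.P141.H8.BirthFD
import Vale.Agent.P141.H808.VarDr

/-!
# P141, line (A), increasing part: the energy of the stack on affected cells, class data

`aff_fin` : `H28.AffI.aff_W` for the stack of the class data on the affected cells of any predicate
with the packing `GP`; only the cells which are alive at the time `k + 1` contribute.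
-/

namespace Vale.Agent.P141.H576

open Finset Matrix
open Vale.Agent.P141.PL (Pt iv ix cb cx mem_iv mem_cb ix_ix)
open Vale.Agent.P141.PL.H315 (Tri A2 avg)
open Vale.Agent.P141.H48 (US ES BSl sst cst)
open Vale.Agent.P141.H305 (Cls ClsM kapM)
open Vale.Agent.P141.H460 (Lin)
open Vale.Agent.P141.H28.AffI (GP aff_W)
open Vale.Agent.P141.H652 (Th)
open Vale.Agent.P141.H677 (GT KT tr_T GT_form kF rt)
open Vale.Agent.P141.H408 (beI)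
open Vale.Agent.P141.H808 (wl thS rt_card pot_root' gap_le)

noncomputable section

open scoped Classical

/-- the affected cells which are alive at the time `k + 1` -/
def Av (Λ : ℝ) (a : ℤ × ℤ → ℝ) (K : ℕ) (Af : ℕ → Pt → Prop) (k : ℕ) (m : Pt) : Prop :=
  Af k m ∧ k < K ∧ ¬ sst Λ a K (k + 1) (2 ^ k * m.2.1) (2 ^ k * m.2.2)

/-- the function of time `k + 1`, divided by `√ez` -/
def Zf (Λ : ℝ) (a : ℤ × ℤ → ℝ) (ez : ℝ) (K : ℕ) (F : ℕ → Pt → ℝ) (k : ℕ) (x : Pt) : ℝ :=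
  if k < K then (√ez)⁻¹ * kF Λ a K F (k + 1) x else 0

theorem gp_Av {Λ : ℝ} {a : ℤ × ℤ → ℝ} {K : ℕ} {Af : ℕ → Pt → Prop} {P : ℝ} (h : GP Af K P) :
    GP (Av Λ a K Af) K P := fun k hk m => by
  refine (sum_le_sum fun y _ => sum_le_sum fun j _ => ?_).trans (h k hk m)
  unfold Av
  split_ifs with h1 h2 h2
  · exact le_rfl
  · exact absurd h1.1 h2
  · exact zero_le_one
  · exact le_rfl

theorem lin_Zf {Λ : ℝ} {a : ℤ × ℤ → ℝ} {ez cP : ℝ} {n K : ℕ} (hK : K ≤ n) {F : ℕ → Pt → ℝ}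
    {Q : ℕ → Pt → Prop} (hB : BSl n ez cP F Q) (hez : 0 < ez) : Lin K 1 (Zf Λ a ez K F) := by
  intro k hk m x1 x3
  unfold Zf
  split_ifs with h
  · have h1 := hB.l0 k (h.trans_le hK) m x1 x3
    have e1 : ∑ x0 ∈ iv k m, ((√ez)⁻¹ * kF Λ a K F (k + 1) (x0, x1, x3)) ^ 2 ≤
        ez⁻¹ * ∑ x0 ∈ iv k m, F (k + 1) (x0, x1, x3) ^ 2 := by
      rw [mul_sum]
      refine sum_le_sum fun x0 _ => ?_
      rw [mul_pow, inv_pow, Real.sq_sqrt hez.le]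
      refine mul_le_mul_of_nonneg_left ?_ (inv_nonneg.2 hez.le)
      unfold H677.kF
      by_cases hz : k + 1 = 0 ∨ sst Λ a K (k + 1) (x0, x1, x3).2.1 (x0, x1, x3).2.2
      · rw [if_pos hz]
        have := sq_nonneg (F (k + 1) (x0, x1, x3))
        nlinarith
      · rw [if_neg hz]
    refine e1.trans ?_
    calc ez⁻¹ * ∑ x0 ∈ iv k m, F (k + 1) (x0, x1, x3) ^ 2 ≤ ez⁻¹ * (ez * 2 ^ k) :=
          mul_le_mul_of_nonneg_left h1 (inv_nonneg.2 hez.le)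
      _ = 1 * 2 ^ k := by field_simp
  · simp

/-- the mass of `v` on an affected cell which is alive at the time `k + 1` -/
theorem mass_Av {ι : Type} [Fintype ι] {Λ s ez cP : ℝ} {n K : ℕ} {F : ℕ → Pt → ℝ}
    {Q : ℕ → Pt → Prop} {a : ℤ × ℤ → ℝ} {v : ℤ → ℤ → ι → ℝ} {D : ℕ → ℤ → ℤ → Prop} {M1 M3 : ℤ}
    (h : H215.CD Λ s ez cP n K F Q a v D M1 M3) {Af : ℕ → Pt → Prop} {k : ℕ} {m : Pt}
    (h1 : m.2.1 ∈ iv (K - k) M1) (h3 : m.2.2 ∈ iv (K - k) M3) (ha : Av Λ a K Af k m) :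
    ∑ x1 ∈ iv k m.2.1, ∑ x3 ∈ iv k m.2.2, v x1 x3 ⬝ᵥ v x1 x3 ≤ 4 * (Λ * s) * 4 ^ k := by
  obtain ⟨_, hk, hal⟩ := ha
  have hk1 : k + 1 ≤ K := hk
  have up : ∀ {w M : ℤ}, w ∈ iv (K - k) M → ix 1 w ∈ iv (K - (k + 1)) M := by
    intro w M hw
    rw [mem_iv] at hw ⊢
    rw [ix_ix, ← hw]
    congr 1
    omega
  have sub1 : ∀ w : ℤ, iv k w ⊆ iv (k + 1) (ix 1 w) := fun w =>
    H215.cell_sub (Nat.le_succ k) (by
      rw [show k.succ - k = 1 by omega]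
      exact mem_iv.2 rfl)
  have cor : ∀ w : ℤ, ix (k + 1) (2 ^ k * w) = ix (k + 1) (2 ^ (k + 1) * ix 1 w) := by
    intro w
    rw [mem_iv.1 (H215.corner_iv (k + 1) (ix 1 w))]
    exact mem_iv.1 (sub1 w (H215.corner_iv k w))
  have hal' : ¬ sst Λ a K (k + 1) (2 ^ (k + 1) * ix 1 m.2.1) (2 ^ (k + 1) * ix 1 m.2.2) :=
    fun hc => hal (((Dd_sst Λ a K).congr (k + 1) _ _ _ _ (cor m.2.1) (cor m.2.2)).2 hc)
  have c1 := H215.cell_sub hk1 (up h1)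
  have c3 := H215.cell_sub hk1 (up h3)
  have hm := H618.mass_alive hk1 h.Λ0 hal'
    (h.mass _ (c1 (H215.corner_iv (k + 1) (ix 1 m.2.1))) _
      (c3 (H215.corner_iv (k + 1) (ix 1 m.2.2))))
  calc ∑ x1 ∈ iv k m.2.1, ∑ x3 ∈ iv k m.2.2, v x1 x3 ⬝ᵥ v x1 x3
      ≤ ∑ x1 ∈ iv k m.2.1, ∑ x3 ∈ iv k m.2.2, a (x1, x3) ^ 2 :=
        sum_le_sum fun x1 hx1 => sum_le_sum fun x3 hx3 =>
          h.maj x1 (c1 (sub1 _ hx1)) x3 (c3 (sub1 _ hx3))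
    _ ≤ ∑ x1 ∈ iv (k + 1) (ix 1 m.2.1), ∑ x3 ∈ iv (k + 1) (ix 1 m.2.2), a (x1, x3) ^ 2 := by
        refine (sum_le_sum fun x1 _ => sum_le_sum_of_subset_of_nonneg (sub1 m.2.2)
          fun _ _ _ => sq_nonneg _).trans ?_
        exact sum_le_sum_of_subset_of_nonneg (sub1 m.2.1)
          fun _ _ _ => sum_nonneg fun _ _ => sq_nonneg _
    _ ≤ Λ * s * 4 ^ (k + 1) := hm
    _ = 4 * (Λ * s) * 4 ^ k := by rw [pow_succ]; ring

section core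

variable {ι : Type} [Fintype ι] [DecidableEq ι]

/-- the energy of the stack at the time `k + 1` on the cells `Af` of scale `k` -/
def affE (p : H401.Num) (s r ez : ℝ) (o : ℤ) (K : ℕ) (x : Pt) (U : Tri) (u v : ℤ → ℤ → ι → ℝ)
    (F2 : ℕ → Pt → ℝ) (Af : ℕ → Pt → Prop) : ℝ :=
  ∑ t ∈ rt (cx K x), ∑ k ∈ range K, ∑ y ∈ cb K (t, (cx K x).1, (cx K x).2.2),
    (if Af k (cx k y) then wl p ez U K F2 y.2.1 y.2.2 (k + 1) y.1 *
      (v y.2.1 y.2.2 ⬝ᵥ thS p s r o K x u y.1 y.2.1 k (ix k y.2.2) *ᵥ v y.2.1 y.2.2) else 0)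

theorem aff_core {p : H401.Num} (ht : 0 < p.t) {s r P ez cP : ℝ} (hs : 0 < s) (hr : 1 ≤ r)
    (hez : 0 < ez) (o : ℤ) {n K : ℕ} (hKn : K ≤ n) {x : Pt} {U : Tri} {g : ℤ → ℤ → ℝ}
    {u v : ℤ → ℤ → ι → ℝ} {F2 : ℕ → Pt → ℝ} {Q2 : ℕ → Pt → Prop} (q2 : BSl n ez cP F2 Q2)
    (hP : 0 ≤ P) (hcls : Cls K x s r P U g u v) {Af : ℕ → Pt → Prop} {PG : ℝ} (hPG : 0 ≤ PG)
    (hA : GP Af K PG) {h : ℕ} (hh : 1 ≤ h) (hPh : 2 * (4 * PG) ≤ h) (q : ℕ) :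
    affE p s r ez o K x U u v F2 Af ≤
      3 * (beI p r * (1 * (4 * (p.Lm * s)) * PG * 8 ^ K)) +
      (4 * ((1 + h * q) * (3 * (1 / 2) * (P / p.lam s r) * (s * 8 ^ K))) +
        3 * (4 * (4 * (p.Lm * s) * (4 * PG) * (1 / 2) ^ q * 8 ^ K))) := by
  have hl : 0 < p.lam s r := H401.Num.lam_pos (p := p) ht hs hr
  have hLm : 0 < p.Lm := Real.rpow_pos_of_pos ht _
  have hbe : 0 < beI p r := Real.rpow_pos_of_pos (div_pos ht (by linarith)) _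
  have hcd := H215.cd_of_cls (Λ := p.Lm) hcls hLm.le hs.le hez.le hKn q2
  have one : ∀ t ∈ rt (cx K x), ∑ k ∈ range K, ∑ y ∈ cb K (t, (cx K x).1, (cx K x).2.2),
      (if Af k (cx k y) then wl p ez U K F2 y.2.1 y.2.2 (k + 1) y.1 *
        (v y.2.1 y.2.2 ⬝ᵥ thS p s r o K x u y.1 y.2.1 k (ix k y.2.2) *ᵥ v y.2.1 y.2.2) else 0) ≤
      beI p r * (1 * (4 * (p.Lm * s)) * PG * 8 ^ K) +
      4 * 1 * ((1 + h * q) * (2 ^ K * ∑ x1 ∈ iv K (cx K x).1, ∑ x3 ∈ iv K (cx K x).2.2,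
        (2 * p.lam s r)⁻¹ * (v x1 x3 ⬝ᵥ GT u x1 K (cx K x).2.1 *ᵥ v x1 x3)) +
        4 * (p.Lm * s) * (4 * PG) * (1 / 2) ^ q * 8 ^ K) := by
    intro t _
    refine le_trans ?_ (aff_W (l := p.lam s r) (M1 := (cx K x).1) (M2 := (cx K x).2.1)
      (M3 := (cx K x).2.2) (G := GT u) (Kq := KT (p.lam s r) u) (fun x1 _ => tr_T hl K u x1)
      hPG (gp_Av (Λ := p.Lm) (a := U.2.1) hA) zero_le_one
      (lin_Zf (Λ := p.Lm) (a := U.2.1) hKn q2 hez) v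
      (τ := 4 * (p.Lm * s)) (by positivity) (fun k _ m h1 h3 ha => mass_Av hcd h1 h3 ha)
      hh hPh q (o - 2) t hbe.le)
    have h0 : ∀ k ∈ range (K + 1), 0 ≤ ∑ y ∈ cb K (t, (cx K x).1, (cx K x).2.2),
        (if Av p.Lm U.2.1 K Af k (cx k y) then Zf p.Lm U.2.1 ez K F2 k y ^ 2 *
          (v y.2.1 y.2.2 ⬝ᵥ (beI p r • (1 : Matrix ι ι ℝ) +
            Th (p.lam s r) K (cx K x).2.1 (KT (p.lam s r) u y.2.1) (o - 2) y.1 y.2.1 k
              (ix k y.2.2)) *ᵥ v y.2.1 y.2.2) else 0) := by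
      intro k _
      refine sum_nonneg fun y _ => ?_
      split_ifs
      · exact mul_nonneg (sq_nonneg _) (H808.form_nonneg
          (H808.thS_pd ht hs hr o K x u y.1 y.2.1 k (ix k y.2.2)).posSemidef _)
      · exact le_rfl
    rw [sum_range_succ]
    refine le_trans ?_ (le_add_of_nonneg_right (h0 K (self_mem_range_succ K)))
    refine sum_le_sum fun k hk => sum_le_sum fun y _ => ?_
    have hk' : k < K := mem_range.1 hk
    by_cases ha : Af k (cx k y)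
    · rw [if_pos ha]
      by_cases hst : sst p.Lm U.2.1 K (k + 1) y.2.1 y.2.2
      · have e0 : wl p ez U K F2 y.2.1 y.2.2 (k + 1) y.1 = 0 := by
          unfold H808.wl H677.kF
          rw [if_pos (Or.inr hst)]
          ring
        rw [e0, zero_mul]
        split_ifs
        · exact mul_nonneg (sq_nonneg _) (H808.form_nonneg
            (H808.thS_pd ht hs hr o K x u y.1 y.2.1 k (ix k y.2.2)).posSemidef _)
        · exact le_rfl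
      · have hav : Av p.Lm U.2.1 K Af k (cx k y) := by
          refine ⟨ha, hk', fun hc => hst ?_⟩
          refine ((Dd_sst p.Lm U.2.1 K).congr (k + 1) _ _ _ _ ?_ ?_).1 hc
          · exact H769.ix_of_le (Nat.le_succ k) (mem_iv.1 (H215.corner_iv k (ix k y.2.1)))
          · exact H769.ix_of_le (Nat.le_succ k) (mem_iv.1 (H215.corner_iv k (ix k y.2.2)))
        rw [if_pos hav]
        unfold Zf
        rw [if_pos hk', show ((√ez)⁻¹ * kF p.Lm U.2.1 K F2 (k + 1) y) ^ 2 =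
          wl p ez U K F2 y.2.1 y.2.2 (k + 1) y.1 from H808.q_sq hez U K F2 y.2.1 y.2.2 (k + 1) y.1]
        exact le_rfl
    · rw [if_neg ha]
      split_ifs
      · exact mul_nonneg (sq_nonneg _) (H808.form_nonneg
          (H808.thS_pd ht hs hr o K x u y.1 y.2.1 k (ix k y.2.2)).posSemidef _)
      · exact le_rfl
  unfold affE
  refine (sum_le_sum one).trans ?_
  have h2 := pot_root' hP hcls hl (M := 1 / 2) (by norm_num)
  have h3 : (0 : ℝ) ≤ 4 * (1 + h * q) := by positivity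
  have h4 := mul_le_mul_of_nonneg_left h2 h3
  have e1 : ∑ t ∈ rt (cx K x), (beI p r * (1 * (4 * (p.Lm * s)) * PG * 8 ^ K) +
      4 * 1 * ((1 + h * q) * (2 ^ K * ∑ x1 ∈ iv K (cx K x).1, ∑ x3 ∈ iv K (cx K x).2.2,
        (2 * p.lam s r)⁻¹ * (v x1 x3 ⬝ᵥ GT u x1 K (cx K x).2.1 *ᵥ v x1 x3)) +
        4 * (p.Lm * s) * (4 * PG) * (1 / 2) ^ q * 8 ^ K)) =
      3 * (beI p r * (1 * (4 * (p.Lm * s)) * PG * 8 ^ K)) +
      (4 * (1 + h * q) * ∑ t ∈ rt (cx K x), ∑ x1 ∈ iv K (cx K x).1, ∑ x3 ∈ iv K (cx K x).2.2,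
        1 * (2 ^ K * (1 / 2 * (p.lam s r)⁻¹ *
          (v x1 x3 ⬝ᵥ GT u x1 K (cx K x).2.1 *ᵥ v x1 x3))) +
        3 * (4 * (4 * (p.Lm * s) * (4 * PG) * (1 / 2) ^ q * 8 ^ K))) := by
    have e2 : ∑ x1 ∈ iv K (cx K x).1, ∑ x3 ∈ iv K (cx K x).2.2,
        1 * (2 ^ K * (1 / 2 * (p.lam s r)⁻¹ *
          (v x1 x3 ⬝ᵥ GT u x1 K (cx K x).2.1 *ᵥ v x1 x3))) =
        2 ^ K * ∑ x1 ∈ iv K (cx K x).1, ∑ x3 ∈ iv K (cx K x).2.2,
          (2 * p.lam s r)⁻¹ * (v x1 x3 ⬝ᵥ GT u x1 K (cx K x).2.1 *ᵥ v x1 x3) := by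
      simp only [mul_sum]
      refine sum_congr rfl fun x1 _ => sum_congr rfl fun x3 _ => ?_
      rw [mul_inv]
      ring
    rw [e2, sum_const, sum_const, rt_card, nsmul_eq_mul, nsmul_eq_mul]
    push_cast
    ring
  rw [e1]
  refine add_le_add le_rfl (add_le_add ?_ le_rfl)
  refine h4.trans (le_of_eq ?_)
  ring

end core

/-- **The energy of the stack on affected cells, the number.** -/
theorem aff_fin {e0 L PG δ c d : ℝ} (he0 : 0 < e0) (he0' : e0 ≤ 1) (hL : 0 ≤ L) (hPG : 0 ≤ PG)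
    (hδ : 0 < δ) (hc : 0 ≤ c) (hcδ : c ≤ δ / 2) (hd : 0 < d) (hdδ : d ≤ δ) :
    ∃ C : ℝ, 0 ≤ C ∧ ∀ (a k8 k3 Kt e cP' : ℝ) (t : ℝ), 0 < t → t ≤ 1 → ∀ (n : ℕ) (ez cP : ℝ)
      (F2 : ℕ → Pt → ℝ) (o : ℤ), ∀ K ≤ n, ∀ (x : Pt) (ι : Type) [Fintype ι] [DecidableEq ι]
      (s r : ℝ) (U : Tri) (g : ℤ → ℤ → ℝ) (u v : ℤ → ℤ → ι → ℝ), 0 < s → 1 ≤ r →
      Cls K x s r (L * t ^ (2 - c) * √s) U g u v → ∀ Q2 : ℕ → Pt → Prop,
      BSl n ez cP F2 Q2 → 0 < ez → ∀ Af : ℕ → Pt → Prop, GP Af K PG →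
      affE (⟨a, e0, k8, k3, c, d, Kt, e, cP', L, 1, t⟩ : H401.Num) s r ez o K x U u v F2 Af ≤
        C * (t / r) ^ (-δ) * (s * 8 ^ K) * (t / r) ^ (e0 / 2) := by
  obtain ⟨C1, hC1, HJ⟩ := H808.exists_levels (δ := δ / 2) (by positivity)
  set h : ℕ := ⌈2 * (4 * PG)⌉₊ + 1 with hh
  have hPh : 2 * (4 * PG) ≤ h := by
    rw [hh]
    push_cast
    have := Nat.le_ceil (2 * (4 * PG))
    linarith
  refine ⟨204 * PG + 6 * ((1 + h) * C1) * L, by positivity, ?_⟩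
  intro a k8 k3 Kt e cP' t ht ht1 n ez cP F2 o K hKn x ι _ _ s r U g u v hs hr hcls Q2 q2 hez Af hA
  set p : H401.Num := ⟨a, e0, k8, k3, c, d, Kt, e, cP', L, 1, t⟩ with hp
  have hr0 : 0 < r := by linarith
  set y : ℝ := t / r with hy
  have hy0 : 0 < y := div_pos ht hr0
  have hyt : y ≤ t := by
    rw [hy, div_le_iff₀ hr0]
    nlinarith
  have hy1 : y ≤ 1 := hyt.trans ht1
  obtain ⟨J, hJ1, hJ2⟩ := HJ y hy0 hy1
  have key := aff_core (p := p) ht hs hr hez o hKn q2 (P := L * t ^ (2 - c) * √s)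
    (by positivity) hcls hPG hA (h := h) (by omega) hPh J
  refine key.trans ?_
  have hbe : beI p r = y ^ (e0 / 2) := rfl
  have hB0 : 0 < y ^ (e0 / 2) := Real.rpow_pos_of_pos hy0 _
  have hD0 : 0 < y ^ (-δ) := Real.rpow_pos_of_pos hy0 _
  have hLm : p.Lm ≤ y ^ (-δ) := by
    show t ^ (-d) ≤ _
    calc t ^ (-d) ≤ y ^ (-d) := by
          rw [Real.rpow_neg ht.le, Real.rpow_neg hy0.le]
          exact inv_anti₀ (Real.rpow_pos_of_pos hy0 _) (Real.rpow_le_rpow hy0.le hyt hd.le)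
      _ ≤ y ^ (-δ) := Real.rpow_le_rpow_of_exponent_ge hy0 hy1 (by linarith)
  have hV : 0 ≤ s * 8 ^ K := by positivity
  have hgap : L * t ^ (2 - c) * √s / p.lam s r ≤ L * (y ^ (-(δ / 2)) * y ^ e0) :=
    gap_le ht ht1 hs hr hL hc hcδ
  have hq : (1 / 2 : ℝ) ^ J ≤ y ^ (e0 / 2) := by
    have h1 : (1 / 2 : ℝ) ^ J = (2 ^ J)⁻¹ := by rw [one_div, inv_pow]
    rw [h1]
    have h2 : y ^ (-3 : ℝ) ≤ 2 ^ J := by
      have : 0 < y ^ (-3 : ℝ) := Real.rpow_pos_of_pos hy0 _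
      linarith
    calc ((2 : ℝ) ^ J)⁻¹ ≤ (y ^ (-3 : ℝ))⁻¹ := inv_anti₀ (Real.rpow_pos_of_pos hy0 _) h2
      _ = y ^ (3 : ℝ) := by rw [Real.rpow_neg hy0.le, inv_inv]
      _ ≤ y ^ (e0 / 2) := Real.rpow_le_rpow_of_exponent_ge hy0 hy1 (by linarith)
  have hlev : 1 + (h : ℝ) * J ≤ (1 + h) * (C1 * y ^ (-(δ / 2))) := by
    have h1 : (1 : ℝ) ≤ (J : ℝ) + 1 := by
      have : (0 : ℝ) ≤ J := Nat.cast_nonneg J
      linarith
    have h2 : (J : ℝ) + 1 ≤ ((J : ℝ) + 1) ^ 3 := by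
      have h3 : (1 : ℝ) ≤ ((J : ℝ) + 1) ^ 2 := one_le_pow₀ h1
      nlinarith
    have h4 : (0 : ℝ) ≤ h := Nat.cast_nonneg h
    have h5 : (0 : ℝ) ≤ J := Nat.cast_nonneg J
    calc 1 + (h : ℝ) * J ≤ (1 + h) * ((J : ℝ) + 1) := by nlinarith
      _ ≤ (1 + h) * (C1 * y ^ (-(δ / 2))) :=
        mul_le_mul_of_nonneg_left (h2.trans hJ2) (by positivity)
  have hdd : y ^ (-(δ / 2)) * y ^ (-(δ / 2)) = y ^ (-δ) := by
    rw [← Real.rpow_add hy0]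
    congr 1
    ring
  have hee : y ^ e0 ≤ y ^ (e0 / 2) := Real.rpow_le_rpow_of_exponent_ge hy0 hy1 (by linarith)
  have t1 : 3 * (beI p r * (1 * (4 * (p.Lm * s)) * PG * 8 ^ K)) ≤
      12 * PG * (y ^ (-δ) * (s * 8 ^ K) * y ^ (e0 / 2)) := by
    rw [hbe]
    calc 3 * (y ^ (e0 / 2) * (1 * (4 * (p.Lm * s)) * PG * 8 ^ K)) =
          p.Lm * (12 * PG * ((s * 8 ^ K) * y ^ (e0 / 2))) := by ring
      _ ≤ y ^ (-δ) * (12 * PG * ((s * 8 ^ K) * y ^ (e0 / 2))) :=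
        mul_le_mul_of_nonneg_right hLm (by positivity)
      _ = _ := by ring
  have t2 : 4 * ((1 + h * J) * (3 * (1 / 2) * (L * t ^ (2 - c) * √s / p.lam s r) *
      (s * 8 ^ K))) ≤
      6 * ((1 + h) * C1) * L * (y ^ (-δ) * (s * 8 ^ K) * y ^ (e0 / 2)) := by
    calc 4 * ((1 + h * J) * (3 * (1 / 2) * (L * t ^ (2 - c) * √s / p.lam s r) * (s * 8 ^ K)))
        ≤ 4 * (((1 + h) * (C1 * y ^ (-(δ / 2)))) * (3 * (1 / 2) *
          (L * (y ^ (-(δ / 2)) * y ^ e0)) * (s * 8 ^ K))) := by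
          refine mul_le_mul_of_nonneg_left ?_ (by norm_num)
          refine mul_le_mul hlev ?_ ?_ (by positivity)
          · refine mul_le_mul_of_nonneg_right (mul_le_mul_of_nonneg_left hgap (by norm_num)) hV
          · have hl : 0 < p.lam s r := H401.Num.lam_pos (p := p) ht hs hr
            positivity
      _ = 6 * ((1 + h) * C1) * L * ((y ^ (-(δ / 2)) * y ^ (-(δ / 2))) * (s * 8 ^ K) * y ^ e0) := by
          ring
      _ ≤ 6 * ((1 + h) * C1) * L * ((y ^ (-(δ / 2)) * y ^ (-(δ / 2))) * (s * 8 ^ K) *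
          y ^ (e0 / 2)) := by
          refine mul_le_mul_of_nonneg_left (mul_le_mul_of_nonneg_left hee (by positivity))
            (by positivity)
      _ = _ := by rw [hdd]
  have t3 : 3 * (4 * (4 * (p.Lm * s) * (4 * PG) * (1 / 2) ^ J * 8 ^ K)) ≤
      192 * PG * (y ^ (-δ) * (s * 8 ^ K) * y ^ (e0 / 2)) := by
    calc 3 * (4 * (4 * (p.Lm * s) * (4 * PG) * (1 / 2) ^ J * 8 ^ K)) =
          (p.Lm * (1 / 2) ^ J) * (192 * PG * (s * 8 ^ K)) := by ring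
      _ ≤ (y ^ (-δ) * y ^ (e0 / 2)) * (192 * PG * (s * 8 ^ K)) :=
        mul_le_mul_of_nonneg_right (mul_le_mul hLm hq (by positivity) hD0.le) (by positivity)
      _ = _ := by ring
  calc _ ≤ 12 * PG * (y ^ (-δ) * (s * 8 ^ K) * y ^ (e0 / 2)) +
        (6 * ((1 + h) * C1) * L * (y ^ (-δ) * (s * 8 ^ K) * y ^ (e0 / 2)) +
        192 * PG * (y ^ (-δ) * (s * 8 ^ K) * y ^ (e0 / 2))) := add_le_add t1 (add_le_add t2 t3)
    _ = _ := by ring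

end

end Vale.Agent.P141.H576
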