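import Vale.Agent.P141.H576.StatZ
import Vale.Agent.P141.H576.GapN
import Vale.Agent.P141.H401.CutData
import Vale.Agent.P141.H618.CapC
import Vale.Agent.P141.H64.HighW
import Vale.Agent.P141.H80.CapP

/-!
# P141, line (A): the gap part, static inputs for the definite families of `H401.CutData`

* `zA`, `zb`, `zC`, `pA`, `pb` : the families are `0` at the time `0` and are paths;
* `capA`, `capB`, `capC` : caps at the nodes;
* `capL` : the weighted cap of `b`;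
* `gapQ` : the gap family with its numbers; `gapV` : the sum of the gaps over the alive nodes.
-/

namespace Vale.Agent.P141.H576

open Finset Matrix Vale.Agent.P075 Vale.Agent.P141.PL
open Vale.Agent.P141.PL.H315 (Tri)
open Vale.Agent.P141.H48 (US ES BSl sst cst)
open Vale.Agent.P141.H205 (CapS ef FamK pwrK ownK)
open Vale.Agent.P141.H958 (lbs CapR pwr fl PackQ)
open Vale.Agent.P141.H736 (Path)
open Vale.Agent.P141.PL.H804 (Cap)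
open Vale.Agent.P141.H305 (Cls ClsM kapM)
open Vale.Agent.P141.H677
open Vale.Agent.P141.H401 (cA cb mC mA mb b1 qA qB qC)

noncomputable section

open scoped Classical

variable {ι : Type} [Fintype ι] [DecidableEq ι] {p : H401.Num} {s r : ℝ} {U : Tri} {K : ℕ}
  {g : ℤ → ℤ → ℝ} {u v : ℤ → ℤ → ι → ℝ} {F1 F2 F3 : ℕ → Pt → ℝ} {Q1 Q2 Q3 : ℕ → Pt → Prop}

/-! ### Times -/

omit [Fintype ι] [DecidableEq ι] in
theorem zA (x0 : ℤ) : cA p s r U K g F1 Q1 x0 0 = 0 := rfl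

theorem zb (x0 : ℤ) : cb p s r U K u F3 Q3 x0 0 = 0 := rfl

omit [Fintype ι] [DecidableEq ι] in
theorem zC (x0 : ℤ) : mC p U K v F2 x0 0 = 0 := by
  funext z x
  show kD _ F2 0 (x0, x, z) • v x z = 0
  rw [kD, if_pos (Or.inl rfl), zero_smul]

theorem pb (N : ℕ) (R S : ℤ) (x0 : ℤ) (l : ι) :
    Path N R S (fun k n m => qB p U K Q3 k (ix k x0) n m)
      (fun k x y => cb p s r U K u F3 Q3 x0 k x y l) :=
  H80.lowW_path N R S l

/-- the second cut keeps the data of the family, own energy as given -/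
theorem famK_cb {N : ℕ} {R S T : ℤ} {c G G' D : ℝ}
    (hb : FamK N R S (iv N T) (fun x0 k n m => qB p U K Q3 k (ix k x0) n m)
      (b1 p s r U K u F3 Q3) c G D)
    (hG : ∑ x0 ∈ iv N T, ownK N R S (fun k n m => qB p U K Q3 k (ix k x0) n m)
      (cb p s r U K u F3 Q3 x0) ≤ G') :
    FamK N R S (iv N T) (fun x0 k n m => qB p U K Q3 k (ix k x0) n m)
      (cb p s r U K u F3 Q3) c G' D where
  path := fun x0 _ l => pb N R S x0 l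
  zero := fun x0 _ => zb x0
  pack := hb.pack
  own := hG
  pow := (sum_le_sum fun _ _ => H64.pwrK_lowW).trans hb.pow

/-- the weighted cut does not enlarge the own energies -/
theorem ownK_lowW {κ : Type*} [Fintype κ] [DecidableEq κ] {N : ℕ} {R S : ℤ}
    {Q : ℕ → ℤ → ℤ → Prop} {M : ℤ → ℕ → ℤ → Matrix κ κ ℝ} {F : ℕ → ℤ → ℤ → κ → ℝ} {c : ℝ} :
    ownK N R S Q (H80.lowW Q M c F) ≤ ownK N R S Q F := by
  unfold H205.ownK
  refine sum_le_sum fun i hi => mul_le_mul_of_nonneg_left ?_ (by positivity)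
  have hQ : Q i.1 i.2.1 i.2.2 := (H958.mem_Aff.1 hi).2.2.2
  refine H80.own_lowG (Pr := H80.prW M c F) (F := F) hQ (H80.prW_tr M c F _ _ _)
    (H80.prW_idem M c F _ _ _) (Subset.refl _) ?_
  intro x
  ext j j'
  simp only [Matrix.transpose_apply, Matrix.one_apply, eq_comm]
  split_ifs <;> rfl

/-- the second cut does not enlarge the own energies -/
theorem own_cb (N : ℕ) (R S : ℤ) (x0 : ℤ) :
    ownK N R S (fun k n m => qB p U K Q3 k (ix k x0) n m) (cb p s r U K u F3 Q3 x0) ≤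
      ownK N R S (fun k n m => qB p U K Q3 k (ix k x0) n m) (b1 p s r U K u F3 Q3 x0) := by
  unfold H401.cb
  exact ownK_lowW

/-- **the data of the low family of `b`** from the data of the first cut -/
theorem famK_cb' {N : ℕ} {R S T : ℤ} {c G D : ℝ}
    (hb : FamK N R S (iv N T) (fun x0 k n m => qB p U K Q3 k (ix k x0) n m)
      (b1 p s r U K u F3 Q3) c G D) :
    FamK N R S (iv N T) (fun x0 k n m => qB p U K Q3 k (ix k x0) n m)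
      (cb p s r U K u F3 Q3) c G D :=
  famK_cb hb ((sum_le_sum fun x0 _ => own_cb N R S x0).trans hb.own)

/-- labels of a family which is `0` at the time `0` -/
theorem ef_zero {κ : Type*} [Fintype κ] {w : κ → ℤ} {F : ℕ → ℤ → ℤ → κ → ℝ} (h : F 0 = 0) :
    ef w (F 0) = 0 := by
  funext l y x
  show H338.cu w (F 0 x y) l = 0
  rw [h]
  unfold H338.cu
  simp

/-! ### Caps -/

omit [Fintype ι] [DecidableEq ι] in
/-- the cap of `A` at a node -/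
theorem capA (x0 : ℤ) {k : ℕ} (hk : 1 ≤ k) (n m : ℤ) :
    Cap k n m (p.th s r) (cA p s r U K g F1 Q1 x0 k) :=
  cap_low1 (fun _ _ => QD_zero _ _ _ _ _) _ hk n m

/-- the cap of `b` at a node -/
theorem capB {L : ℕ} {e : ι → ℤ} (he : Function.Injective e) (hm : ∀ i, e i ∈ lbs L) (x0 : ℤ)
    {k : ℕ} (hk : 1 ≤ k) (n m : ℤ) :
    CapR L k m n (p.th s r) (ef e (cb p s r U K u F3 Q3 x0 k)) :=
  capR_lowW he hm (fun _ _ => QD_zero _ _ _ _ _) _ hk n m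

/-- `CapR` sees only the values on the block -/
theorem capR_congr {L k : ℕ} {n m : ℤ} {τ : ℝ} {B B' : ℤ → ℤ → ℤ → ℝ} (h : CapR L k n m τ B)
    (e : ∀ l, ∀ y ∈ iv k n, ∀ x ∈ iv k m, B l y x = B' l y x) : CapR L k n m τ B' := by
  intro u v
  refine le_trans (le_of_eq ?_) (h u v)
  congr 1
  refine sum_congr rfl fun x hx => sum_congr rfl fun l _ => sum_congr rfl fun y hy => ?_
  show u l x * v y * B' l y x = u l x * v y * B l y x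
  rw [e l y hy x hx]

omit [DecidableEq ι] in
/-- the cap of `C` at an alive node -/
theorem capC {L : ℕ} {e : ι → ℤ} (he : Function.Injective e) (hm : ∀ i, e i ∈ lbs L) {P ez cP : ℝ}
    {n : ℕ} (hKn : K ≤ n) (hΛ : 0 ≤ p.Lm) (hF : ES n ez cP F2) {x : Pt}
    (hC : Cls K x s r P U g u v) {o x0 : ℤ} {k : ℕ} (hk : k ∈ Icc 1 K) {m : Pt}
    (hmN : m ∈ sN (p.al U K) o K (PL.cx K x) x0 k) :
    CapR L k m.1 m.2.2 (2 * √(√(p.Lm * s) * ez))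
      (ef e fun x z => mC p U K v F2 x0 k z x) := by
  have h := H618.capC_alive he hm hKn hΛ hF hC (o := o) (x0 := x0) hk hmN
  have hag := agrN_kF o p.Lm U K x (fun q => g q.1 q.2) u v (fun _ _ => 0) F2 (fun _ _ => 0)
    x0 k hk m hmN
  refine capR_congr h fun l y hy x hx => ?_
  show H338.cu e (fC v F2 x0 k y x) l = H338.cu e (mC p U K v F2 x0 k y x) l
  rw [hag.2.2 y hy x hx]
  rfl

/-- the weighted cap of `b`, matrix form: hub cell `m` of scale `k`, outer cell `n` of scale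
`k + j ≤ N` -/
theorem capL (ht : 0 < p.t) (hs : 0 < s) (hr : 1 ≤ r) (x0 : ℤ) {N k j : ℕ} (hj : k + j ≤ N)
    (n m : ℤ) :
    ((√(p.lam s r) * (p.be s r ^ 2 / √(p.lam s r))) •
        (1 : Matrix (Ix k × ι) (Ix k × ι) ℝ) -
      H874.LP (p.lam s r) (KT (p.lam s r) u) (cb p s r U K u F3 Q3 x0 (k + 1)) k (k + j) n
        m).PosSemidef :=
  H80.cap_LP (div_pos (pow_pos (H401.Num.be_pos ht hs hr) 2) (Real.sqrt_pos.2 (H401.Num.lam_pos ht hs hr)))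
    (fun x1 => tr_T (H401.Num.lam_pos ht hs hr) N u x1) (fun _ _ => QD_zero _ _ _ _ _) hj n m

/-- the number of the weighted cap -/
theorem cap_num (ht : 0 < p.t) (hs : 0 < s) (hr : 1 ≤ r) :
    √(p.lam s r) * (p.be s r ^ 2 / √(p.lam s r)) = p.be s r ^ 2 := by
  have h := Real.sqrt_pos.2 (H401.Num.lam_pos (p := p) ht hs hr)
  field_simp

/-! ### The gap family -/

/-- **The gap family of the definite families.** -/
theorem gapQ {a e₀ c d Kt e cP L : ℝ} (ha : a ≤ 1) (he0 : 0 < e₀) (he0' : e₀ ≤ a / 10)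
    (hc : c ≤ e₀ / 100) (hd0 : 0 < d) (hd : d ≤ e₀ / 100) (hKt : 0 < Kt) (he : 1 ≤ e)
    (hcP : 0 ≤ cP) (hL : 1 ≤ L) :
    ∃ CA CB : ℝ, 0 < CA ∧ 0 < CB ∧ ∀ k8 k3 CD t : ℝ, 0 < t → t ≤ 1 → ∀ (n : ℕ)
      (F1 F3 : ℕ → Pt → ℝ)
      (Q1 Q3 : ℕ → Pt → Prop), US n (Kt * t ^ (1 - c)) e cP F1 → BSl n e cP F1 Q1 →
      US n (Kt * t ^ (1 - c)) e cP F3 → BSl n e cP F3 Q3 → ∀ K ≤ n, ∀ (x : Pt) (ι : Type)
      [Fintype ι] [DecidableEq ι] (s r P : ℝ) (U : Tri) (g : ℤ → ℤ → ℝ) (u v : ℤ → ℤ → ι → ℝ),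
      0 < s → 1 ≤ r → ClsM K x s r P (kapM L t a s r) U g u v → ∀ t₀ : ℤ,
      GapFam (H401.Num.lam ⟨a, e₀, k8, k3, c, d, Kt, e, cP, L, CD, t⟩ s r) K (fun x1 => GT u x1)
        (KT (H401.Num.lam ⟨a, e₀, k8, k3, c, d, Kt, e, cP, L, CD, t⟩ s r) u)
        (rv (PL.cx K x)).1 (rv (PL.cx K x)).2.1 (rv (PL.cx K x)).2.2 t₀
        (cA ⟨a, e₀, k8, k3, c, d, Kt, e, cP, L, CD, t⟩ s r U K g F1 Q1)
        (cb ⟨a, e₀, k8, k3, c, d, Kt, e, cP, L, CD, t⟩ s r U K u F3 Q3)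
        (qA ⟨a, e₀, k8, k3, c, d, Kt, e, cP, L, CD, t⟩ U K Q1)
        (qB ⟨a, e₀, k8, k3, c, d, Kt, e, cP, L, CD, t⟩ U K Q3)
        (CA * (t ^ (2 - 2 * c - 2 * d) * s ^ (3 / 2 : ℝ)))
        ((t ^ (2 - e₀) * √s * r ^ e₀)⁻¹ *
          (CB * (t ^ (2 + e₀ / 4) * s ^ (3 / 2 : ℝ) * r ^ (-(e₀ / 4))))) (cP + 2) := by
  obtain ⟨CA, CB, h1, h2, H⟩ := gapN ha he0 he0' hc hd0 hd hKt he hcP hL
  refine ⟨CA, CB, h1, h2, fun k8 k3 CD t ht ht1 n F1 F3 Q1 Q3 f1 q1 f3 q3 K hK x ι _ _ s r P U g u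
    v hs hr hcl t₀ => ?_⟩
  have f := H t ht ht1 n F1 F3 Q1 Q3 f1 q1 f3 q3 K hK x ι s r P U g u v hs hr hcl t₀
  exact f.cuts (fun _ _ _ => QD_zero _ _ _ _ _) (fun _ _ _ => QD_zero _ _ _ _ _) _ _ _ _

/-- the number of `gapV` in the units `T = t s^(1/4)`, `M = s 8 ^ K`, `q = t / r` -/
theorem unit_num {e₀ t s r : ℝ} (he0 : 0 < e₀) (ht : 0 < t) (hs : 0 < s) (hr : 1 ≤ r) (K : ℕ) :
    t ^ (2 + e₀ / 10) * s ^ (3 / 2 : ℝ) * r ^ (-(e₀ / 8)) * 8 ^ K ≤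
      (t * s ^ (1 / 4 : ℝ)) ^ 2 * (s * 8 ^ K) * (t / r) ^ (e₀ / 10) := by
  have hr0 : 0 < r := by linarith
  have h1 : r ^ (-(e₀ / 8)) ≤ r ^ (-(e₀ / 10)) :=
    Real.rpow_le_rpow_of_exponent_le hr (by linarith)
  have e1 : t ^ (2 + e₀ / 10) = t ^ 2 * t ^ (e₀ / 10) := by
    rw [Real.rpow_add ht, Real.rpow_ofNat]
  have e2 : s ^ (3 / 2 : ℝ) = (s ^ (1 / 4 : ℝ)) ^ 2 * s := by
    rw [← Real.rpow_natCast (s ^ (1 / 4 : ℝ)), ← Real.rpow_mul hs.le]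
    nth_rewrite 3 [← Real.rpow_one s]
    rw [← Real.rpow_add hs]
    norm_num
  have e3 : (t / r) ^ (e₀ / 10) = t ^ (e₀ / 10) * r ^ (-(e₀ / 10)) := by
    rw [Real.div_rpow ht.le hr0.le, Real.rpow_neg hr0.le, div_eq_mul_inv]
  rw [e1, e2, e3]
  have h2 : 0 ≤ t ^ 2 * t ^ (e₀ / 10) * ((s ^ (1 / 4 : ℝ)) ^ 2 * s) * 8 ^ K := by
    have := Real.rpow_nonneg ht.le (e₀ / 10)
    have := Real.rpow_nonneg hs.le (1 / 4 : ℝ)
    positivity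
  calc _ = (t ^ 2 * t ^ (e₀ / 10) * ((s ^ (1 / 4 : ℝ)) ^ 2 * s) * 8 ^ K) * r ^ (-(e₀ / 8)) := by
        ring
    _ ≤ (t ^ 2 * t ^ (e₀ / 10) * ((s ^ (1 / 4 : ℝ)) ^ 2 * s) * 8 ^ K) * r ^ (-(e₀ / 10)) :=
        mul_le_mul_of_nonneg_left h1 h2
    _ = _ := by ring

/-- **The gaps of the definite families over the alive nodes**: `hv` of `H643.tzX_lab3`, for every
matrix `Z` which is `4 ^ L` times the node matrix `WZ`. -/
theorem gapV {a e₀ c d Kt e cP L : ℝ} (ha : a ≤ 1) (he0 : 0 < e₀) (he0' : e₀ ≤ a / 10)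
    (hc : c ≤ e₀ / 100) (hd0 : 0 < d) (hd : d ≤ e₀ / 100) (hKt : 0 < Kt) (he : 1 ≤ e)
    (hcP : 0 ≤ cP) (hL : 1 ≤ L) :
    ∃ C : ℝ, 0 ≤ C ∧ ∀ k8 k3 CD t : ℝ, 0 < t → t ≤ 1 → ∀ (n : ℕ)
      (F1 F3 : ℕ → Pt → ℝ)
      (Q1 Q3 : ℕ → Pt → Prop), US n (Kt * t ^ (1 - c)) e cP F1 → BSl n e cP F1 Q1 →
      US n (Kt * t ^ (1 - c)) e cP F3 → BSl n e cP F3 Q3 → ∀ K ≤ n, ∀ (x : Pt) (ι : Type)
      [Fintype ι] [DecidableEq ι] (s r P : ℝ) (U : Tri) (g : ℤ → ℤ → ℝ) (u v : ℤ → ℤ → ι → ℝ),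
      0 < s → 1 ≤ r → ClsM K x s r P (kapM L t a s r) U g u v → ∀ o : ℤ, o = 1 ∨ o = -1 →
      ∀ (t₀ : ℤ) (Al : ℕ → Pt → Prop) (L' : ℕ) (w : ι → ℤ), Function.Injective w →
      (∀ i, w i ∈ lbs L') → ∀ Z : ℤ → (k : ℕ) → Pt → Matrix (Ix k) (Ix k) ℝ,
      (∀ x₀ ∈ iv K t₀, ∀ k ∈ Icc 1 K, ∀ m ∈ sN Al o K (PL.cx K x) x₀ k, Z x₀ (k + L') m =
        (4 ^ L' : ℝ) • WZ L' (H401.Num.lam ⟨a, e₀, k8, k3, c, d, Kt, e, cP, L, CD, t⟩ s r) w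
          (cA ⟨a, e₀, k8, k3, c, d, Kt, e, cP, L, CD, t⟩ s r U K g F1 Q1 x₀)
          (cb ⟨a, e₀, k8, k3, c, d, Kt, e, cP, L, CD, t⟩ s r U K u F3 Q3 x₀)
          (KT (H401.Num.lam ⟨a, e₀, k8, k3, c, d, Kt, e, cP, L, CD, t⟩ s r) u) (k + L') m) →
      ∑ x₀ ∈ iv K t₀, ∑ k ∈ Icc 1 K, ∑ m ∈ sN Al o K (PL.cx K x) x₀ k,
        (4 ^ (k + L') : ℝ)⁻¹ * (Z x₀ (k + L') m * (Z x₀ (k + L') m)ᵀ).trace ≤
        C * (4 ^ L' * ((t * s ^ (1 / 4 : ℝ)) ^ 2 * (s * 8 ^ K))) * (t / r) ^ (e₀ / 10) := by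
  obtain ⟨CA, CB, h1, h2, H⟩ := gapQ ha he0 he0' hc hd0 hd hKt he hcP hL
  refine ⟨146 * √(CA * CB) * (cP + 2), by positivity, fun k8 k3 CD t ht ht1 n F1 F3 Q1 Q3 f1 q1 f3
    q3 K hK x ι _ _ s r P U g u v hs hr hcl o ho t₀ Al L' w hw hm Z hZ => ?_⟩
  have f := H k8 k3 CD t ht ht1 n F1 F3 Q1 Q3 f1 q1 f3 q3 K hK x ι s r P U g u v hs hr hcl t₀
  have k1 := f.w hw hm (c := fun x₀ => H677.cP o x₀) (fun x₀ => cP_pl ho x₀)
    (fun k x y h => cP_ix o h) (s := fun x₀ k => sN Al o K (PL.cx K x) x₀ k)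
    (fun x₀ _ k _ => sN_sub Al o K (PL.cx K x) x₀ k)
  have k2 := gapN_num (CA := CA) (CB := CB) (t := t) (s := s) (r := r) (cP := cP + 2) he0 hc hd h1
    h2 ht ht1 hs hr (by linarith) K
  have k3' := unit_num (e₀ := e₀) he0 ht hs hr K
  have h4 : (0 : ℝ) < 4 ^ L' := by positivity
  have e1 : ∀ x₀ ∈ iv K t₀, ∀ k ∈ Icc 1 K, ∀ m ∈ sN Al o K (PL.cx K x) x₀ k,
      (4 ^ (k + L') : ℝ)⁻¹ * (Z x₀ (k + L') m * (Z x₀ (k + L') m)ᵀ).trace =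
      (4 ^ L' * 4 ^ L') * ((4 ^ (k + L') : ℝ)⁻¹ * (WZ L' _ w _ _ _ (k + L') m *
        (WZ L' _ w _ _ _ (k + L') m)ᵀ).trace) := fun x₀ hx k hk m hmm => by
    rw [hZ x₀ hx k hk m hmm, transpose_smul, Matrix.smul_mul, Matrix.mul_smul, smul_smul,
      trace_smul, smul_eq_mul]
    ring
  have k4 := k1.trans (mul_le_mul_of_nonneg_left k2 (inv_nonneg.2 h4.le))
  have k5 := mul_le_mul_of_nonneg_left k4 (mul_pos h4 h4).le
  refine le_trans (le_of_eq ?_) (k5.trans ?_)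
  · rw [mul_sum]
    refine sum_congr rfl fun x₀ hx => ?_
    rw [mul_sum]
    refine sum_congr rfl fun k hk => ?_
    rw [mul_sum]
    exact sum_congr rfl (e1 x₀ hx k hk)
  have h5 : 0 ≤ 146 * √(CA * CB) * (cP + 2) := by positivity
  calc _ = 4 ^ L' * (146 * √(CA * CB) * (cP + 2) *
        (t ^ (2 + e₀ / 10) * s ^ (3 / 2 : ℝ) * r ^ (-(e₀ / 8)) * 8 ^ K)) := by
        field_simp
    _ ≤ 4 ^ L' * (146 * √(CA * CB) * (cP + 2) * ((t * s ^ (1 / 4 : ℝ)) ^ 2 * (s * 8 ^ K) *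
        (t / r) ^ (e₀ / 10))) :=
        mul_le_mul_of_nonneg_left (mul_le_mul_of_nonneg_left k3' h5) h4.le
    _ = _ := by ring

end

end Vale.Agent.P141.H576
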