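import Vale.Agent.P141.H609.Reg1
import Vale.Agent.P141.H971.EngL

/-!
# P141, line (A): the lowering against an arbitrary matrix, for a family of planes

`H609.lower2`, `region1`, `region1_lab` for families indexed by `i ∈ X` (`i = x₀`): the own
energies, the Hilbert-Schmidt sums and the hypotheses `hZ`, `hV` are only used summed over `X`.
-/

namespace Vale.Agent.P141.H576

open Finset Matrix Vale.Agent.P075 Vale.Agent.P141.PL Vale.Agent.P141.PL.H588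
open Vale.Agent.P141.PL.H804 Vale.Agent.P141.H736 Vale.Agent.P141.H958 Vale.Agent.P141.H338
open Vale.Agent.P141.H609
open Vale.Agent.P141.H971 (Fam0 FamR FamL)

noncomputable section

open scoped Classical

/-! ### the pair estimate, summed -/

section pair

variable {N : ℕ} {R S T : ℤ} {X : Finset ℤ} {c : ℤ → ℕ → ℤ} {Q Q' : ℤ → ℕ → ℤ → ℤ → Prop}
  {F H : ℤ → ℕ → ℤ → ℤ → ℝ} {g d : ℤ → ℝ} {G D cP : ℝ}

/-- Pair estimate for a family, fourth powers against squares. -/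
theorem pairX (hc : ∀ i ∈ X, Pl (c i)) (hP : 1 ≤ cP)
    (hF : ∀ i ∈ X, S4E N R S (Q i) (F i) (g i) cP) (hH : ∀ i ∈ X, L2E N T S (Q' i) (H i) (d i))
    (hg : ∑ i ∈ X, g i ≤ G) (hd : ∑ i ∈ X, d i ≤ D) {μ ν : ℝ} (hμ : 0 ≤ μ) (hν : 0 ≤ ν) :
    ∑ i ∈ X, prs N R S T (c i) (wp μ (F i)) (wp ν (H i)) ≤
      4400 * cP * (μ ^ 2 * G + ν * D) := by
  refine (sum_le_sum fun i hi => pairE42 (hc i hi) hP ((hF i hi).smul hμ)
    ((hH i hi).smul hν)).trans ?_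
  rw [← mul_sum, sum_add_distrib, ← mul_sum, ← mul_sum]
  refine mul_le_mul_of_nonneg_left ?_ (by positivity)
  exact add_le_add (mul_le_mul_of_nonneg_left hg (by positivity))
    (mul_le_mul_of_nonneg_left hd hν)

/-- **Balanced pair estimate for a family**, no logarithm. -/
theorem pairX_bal (hc : ∀ i ∈ X, Pl (c i)) (hP : 1 ≤ cP)
    (hF : ∀ i ∈ X, S4E N R S (Q i) (F i) (g i) cP) (hH : ∀ i ∈ X, L2E N T S (Q' i) (H i) (d i))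
    (hg : ∑ i ∈ X, g i ≤ G) (hd : ∑ i ∈ X, d i ≤ D) (hG : 0 < G) (hD : 0 < D) {μ ν : ℝ}
    (hμ : 0 < μ) (hν : 0 < ν) :
    ∑ i ∈ X, prs N R S T (c i) (wp μ (F i)) (wp ν (H i)) ≤
      8800 * cP * max (ν * D) √(μ ^ 2 * G * (ν * D)) := by
  set a := μ ^ 2 * G with ha
  set b := ν * D with hb
  have ha0 : 0 < a := by positivity
  have hb0 : 0 < b := by positivity
  rcases le_total a b with hab | hab
  · have h2 := pairX hc hP hF hH hg hd hμ.le hν.le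
    rw [← ha, ← hb] at h2
    refine h2.trans ?_
    have h6 := le_max_left b √(a * b)
    have h7 : 4400 * cP * (a + b) ≤ 8800 * cP * b := by nlinarith
    exact h7.trans (mul_le_mul_of_nonneg_left h6 (by positivity))
  · set θ := √(b / a) with hθ
    have hθ0 : 0 < θ := Real.sqrt_pos.2 (by positivity)
    have hθ1 : θ ≤ 1 := Real.sqrt_le_one.mpr ((div_le_one ha0).2 hab)
    have hθ2 : θ ^ 2 = b / a := Real.sq_sqrt (by positivity)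
    have h1 : θ * ∑ i ∈ X, prs N R S T (c i) (wp μ (F i)) (wp ν (H i)) ≤
        ∑ i ∈ X, prs N R S T (c i) (wp (θ * μ) (F i)) (wp ν (H i)) := by
      rw [mul_sum]
      refine sum_le_sum fun i _ => ?_
      have h1 := prs_theta_le N T S R (c i) hμ.le hθ0.le hθ1 (wp ν (H i)) (F i)
      rwa [prs_comm N T S R (c i) (wp ν (H i)) (wp μ (F i)),
        prs_comm N T S R (c i) (wp ν (H i)) (wp (θ * μ) (F i))] at h1
    have h2 := pairX hc hP hF hH hg hd (mul_nonneg hθ0.le hμ.le) hν.le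
    have e : (θ * μ) ^ 2 * G = b := by
      rw [mul_pow, hθ2, mul_assoc, ← ha]
      field_simp
    rw [e, ← hb] at h2
    have h3 : ∑ i ∈ X, prs N R S T (c i) (wp μ (F i)) (wp ν (H i)) ≤ (8800 * cP * b) / θ := by
      rw [le_div_iff₀ hθ0]
      linarith
    refine h3.trans ?_
    rw [mul_div_assoc, hθ, div_sqrt_div hb0 ha0, mul_comm b a]
    exact mul_le_mul_of_nonneg_left (le_max_right _ _) (by positivity)

end pair

/-! ### the lowering -/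

/-- Cauchy-Schwarz. -/
theorem sum_sqrt_le {X : Finset ℤ} {f g : ℤ → ℝ} (hf : ∀ i, 0 ≤ f i) (hg : ∀ i, 0 ≤ g i) {w r : ℝ}
    (hw : ∑ i ∈ X, f i ≤ w) (hr : ∑ i ∈ X, g i ≤ r) : ∑ i ∈ X, √(f i * g i) ≤ √(w * r) := by
  have h0 : 0 ≤ ∑ i ∈ X, f i := sum_nonneg fun i _ => hf i
  have h1 : 0 ≤ ∑ i ∈ X, g i := sum_nonneg fun i _ => hg i
  have h := Real.sum_sqrt_mul_sqrt_le X hf hg
  rw [← Real.sqrt_mul h0] at h
  simp only [← Real.sqrt_mul (hf _)] at h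
  exact h.trans (Real.sqrt_le_sqrt (mul_le_mul hw hr h1 (h0.trans hw)))

section

variable {N : ℕ} {R : Pt} {X : Finset ℤ} {c : ℤ → ℕ → ℤ} {A C : ℤ → ℕ → ℤ → ℤ → ℝ} {cA cC : ℝ}
  {s : ℤ → ℕ → Finset Pt} {W : ℤ → (k : ℕ) → Pt → Matrix (Ix k) (Ix k) ℝ}

/-- **The A-step**, family. -/
theorem a_stepX (hs : ∀ i ∈ X, ∀ k ∈ Icc 1 N, s i k ⊆ bx3 N R k (c i k)) (hA : 0 < cA)
    (hC : 0 < cC) (capC : ∀ i ∈ X, ∀ k ∈ Icc 1 N, ∀ m ∈ s i k, Cap k m.1 m.2.2 cC (C i k))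
    (a e : ℕ) {w r : ℝ}
    (hw : ∑ i ∈ X, ∑ k ∈ Icc 1 N, ∑ m ∈ s i k, (4 ^ k : ℝ)⁻¹ * (W i k m * (W i k m)ᵀ).trace ≤ w)
    (hr : ∑ i ∈ X, prs N R.2.1 R.1 R.2.2 (c i) (wp (lv cA a) (sp (A i)))
      (wp (lv cC e) (sp (C i))) ≤ r) :
    ∑ i ∈ X, UW N (s i) cA cC (A i) (C i) (W i) a e ≤
      ∑ i ∈ X, UW N (s i) cA cC (A i) (C i) (W i) (a + 1) e +
        6 * (cC / 2 ^ (e - 1) * √(w * r)) := by
  have nW : ∀ i, 0 ≤ ∑ k ∈ Icc 1 N, ∑ m ∈ s i k, (4 ^ k : ℝ)⁻¹ * (W i k m * (W i k m)ᵀ).trace :=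
    fun i => sum_nonneg fun k _ => sum_nonneg fun m _ =>
      mul_nonneg (by positivity) (psd_mul_transpose (W i k m)).trace_nonneg
  have h1 := sum_le_sum fun i hi => a_step (hs i hi) hA hC (capC i hi) a e (W := W i)
    (A := A i) (C := C i) (c := c i) (s := s i) (R := R) (N := N) le_rfl le_rfl
  refine h1.trans ?_
  rw [sum_add_distrib, ← mul_sum, ← mul_sum]
  refine add_le_add le_rfl (mul_le_mul_of_nonneg_left (mul_le_mul_of_nonneg_left ?_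
    (by positivity)) (by norm_num))
  exact sum_sqrt_le nW (fun i => prs_nonneg ..) hw hr

/-- **The C-step**, family. -/
theorem c_stepX (a e : ℕ) :
    ∑ i ∈ X, UW N (s i) cA cC (A i) (C i) (W i) a e ≤
      ∑ i ∈ X, UW N (s i) cA cC (A i) (C i) (W i) a (e + 1) +
        ∑ i ∈ X, VW N (s i) cA cC (A i) (C i) (W i) a e := by
  rw [← sum_add_distrib]
  exact sum_le_sum fun i _ => c_step a e

/-- **Lowering of `A` and `C` against an arbitrary `W`**, family. -/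
theorem lower2X (hs : ∀ i ∈ X, ∀ k ∈ Icc 1 N, s i k ⊆ bx3 N R k (c i k)) (hA : 0 < cA)
    (hC : 0 < cC) (capC : ∀ i ∈ X, ∀ k ∈ Icc 1 N, ∀ m ∈ s i k, Cap k m.1 m.2.2 cC (C i k))
    {w κ GA EC : ℝ} (hκ : 0 ≤ κ)
    (hw : ∑ i ∈ X, ∑ k ∈ Icc 1 N, ∑ m ∈ s i k, (4 ^ k : ℝ)⁻¹ * (W i k m * (W i k m)ᵀ).trace ≤ w)
    (hr : ∀ a e, ∑ i ∈ X, prs N R.2.1 R.1 R.2.2 (c i) (wp (lv cA a) (sp (A i)))
      (wp (lv cC e) (sp (C i))) ≤
      κ * max (4 ^ (e - 1) * (EC / cC ^ 2))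
        √(16 ^ (a - 1) * (GA / cA ^ 4) * (4 ^ (e - 1) * (EC / cC ^ 2))))
    {ρ σ κC Z : ℝ} (hρ : 0 < ρ) (hσ : 0 < σ) (hκC : 0 ≤ κC)
    (hZ : ∀ a e, cA / 2 ^ (a - 1) < σ → ∑ i ∈ X, UW N (s i) cA cC (A i) (C i) (W i) a e ≤ Z)
    (hV : ∀ a e, σ ≤ cA / 2 ^ (a - 1) → ρ * (cA / 2 ^ (a - 1)) < cC / 2 ^ (e - 1) →
      ∑ i ∈ X, VW N (s i) cA cC (A i) (C i) (W i) a e ≤ κC) {LA LC : ℕ}
    (lA : cA / 2 ^ (LA - 1) < σ) (lC : cC / 2 ^ (LC - 1) ≤ ρ * σ) :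
    ∑ i ∈ X, ∑ k ∈ Icc 1 N, ∑ m ∈ s i k, |(2 ^ k : ℝ)⁻¹ *
        (W i k m * hd k * bl k (C i k) m.1 m.2.2).trace| ≤
      6 * √(w * (κ * max EC (ρ / σ * √(GA * EC)))) * LA + κC * LC + Z := by
  have h0 : ∑ i ∈ X, ∑ k ∈ Icc 1 N, ∑ m ∈ s i k, |(2 ^ k : ℝ)⁻¹ *
      (W i k m * hd k * bl k (C i k) m.1 m.2.2).trace| =
      ∑ i ∈ X, UW N (s i) cA cC (A i) (C i) (W i) 0 0 := by
    unfold UW
    simp only [lo, rg, Matrix.mul_one]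
  have hw0 : 0 ≤ w := le_trans (sum_nonneg fun i _ => sum_nonneg fun k _ => sum_nonneg fun m _ =>
    mul_nonneg (by positivity) (psd_mul_transpose (W i k m)).trace_nonneg) hw
  rw [h0]
  refine ind2 (U := fun a e => ∑ i ∈ X, UW N (s i) cA cC (A i) (C i) (W i) a e) (by positivity)
    hκC fun a e => ?_
  by_cases h1 : cA / 2 ^ (a - 1) < σ
  · exact Or.inl (hZ a e h1)
  rw [not_lt] at h1
  have mono : ∀ {x : ℝ}, 0 ≤ x → ∀ {i j : ℕ}, i ≤ j → x / 2 ^ (j - 1) ≤ x / 2 ^ (i - 1) :=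
    fun hx i j hij => div_le_div_of_nonneg_left hx (by positivity)
      (pow_le_pow_right₀ (by norm_num) (by omega))
  by_cases h2 : ρ * (cA / 2 ^ (a - 1)) < cC / 2 ^ (e - 1)
  · refine Or.inr (Or.inr ⟨?_, (c_stepX a e).trans (add_le_add le_rfl (hV a e h1 h2))⟩)
    by_contra h3
    have h4 := mono hC.le (not_lt.1 h3)
    have h5 := mul_le_mul_of_nonneg_left h1 hρ.le
    linarith
  · rw [not_lt] at h2
    refine Or.inr (Or.inl ⟨?_, ?_⟩)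
    · by_contra h3
      have h4 := mono hA.le (not_lt.1 h3)
      linarith
    · refine (a_stepX hs hA hC capC a e hw (hr a e)).trans (add_le_add le_rfl ?_)
      refine mul_le_mul_of_nonneg_left ?_ (by norm_num)
      set sA : ℝ := cA / 2 ^ (a - 1) with hsA
      set sC : ℝ := cC / 2 ^ (e - 1) with hsC
      have pA : 0 < sA := by positivity
      have pC : 0 < sC := by positivity
      have e1 : sC * √(w * (κ * max (4 ^ (e - 1) * (EC / cC ^ 2))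
          √(16 ^ (a - 1) * (GA / cA ^ 4) * (4 ^ (e - 1) * (EC / cC ^ 2))))) =
          √(w * (κ * (sC ^ 2 * max (4 ^ (e - 1) * (EC / cC ^ 2))
          √(16 ^ (a - 1) * (GA / cA ^ 4) * (4 ^ (e - 1) * (EC / cC ^ 2)))))) := by
        conv_lhs => rw [← Real.sqrt_sq pC.le, ← Real.sqrt_mul (sq_nonneg _)]
        congr 1
        ring
      rw [e1]
      refine Real.sqrt_le_sqrt (mul_le_mul_of_nonneg_left
        (mul_le_mul_of_nonneg_left ?_ hκ) hw0)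
      rw [mul_max_of_nonneg _ _ (sq_nonneg sC)]
      have hp2 : ∀ j : ℕ, (4 : ℝ) ^ j = (2 ^ j) ^ 2 := fun j => by
        rw [← pow_mul, mul_comm j 2, pow_mul]; norm_num
      have hp4 : ∀ j : ℕ, (16 : ℝ) ^ j = (2 ^ j) ^ 4 := fun j => by
        rw [← pow_mul, mul_comm j 4, pow_mul]; norm_num
      have q1 : sC ^ 2 * (4 ^ (e - 1) * (EC / cC ^ 2)) = EC := by
        rw [hsC, hp2]
        field_simp
      refine max_le_max (le_of_eq q1) ?_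
      have q2 : sC ^ 2 * √(16 ^ (a - 1) * (GA / cA ^ 4) * (4 ^ (e - 1) * (EC / cC ^ 2))) =
          sC / sA ^ 2 * √(GA * EC) := by
        have q3 : 16 ^ (a - 1) * (GA / cA ^ 4) * (4 ^ (e - 1) * (EC / cC ^ 2)) =
            ((sA ^ 2 * sC)⁻¹) ^ 2 * (GA * EC) := by
          rw [hsA, hsC, hp2, hp4]
          field_simp
        rw [q3, Real.sqrt_mul (sq_nonneg _), Real.sqrt_sq (by positivity)]
        field_simp
      rw [q2]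
      refine mul_le_mul_of_nonneg_right ?_ (Real.sqrt_nonneg _)
      rw [div_le_div_iff₀ (by positivity) hσ]
      calc sC * σ ≤ (ρ * sA) * sA := mul_le_mul h2 h1 hσ.le (by positivity)
        _ = ρ * sA ^ 2 := by ring

variable {QA QC : ℤ → ℕ → ℤ → ℤ → Prop} {ga ec : ℤ → ℝ} {GA EC cP : ℝ}

/-- **REGION 1, family**: arbitrary `W`, paths `A` (fourth powers) and `C` (squares). -/
theorem region1X (hc : ∀ i ∈ X, Pl (c i))
    (hs : ∀ i ∈ X, ∀ k ∈ Icc 1 N, s i k ⊆ bx3 N R k (c i k)) (hA : 0 < cA) (hC : 0 < cC)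
    (capC : ∀ i ∈ X, ∀ k ∈ Icc 1 N, ∀ m ∈ s i k, Cap k m.1 m.2.2 cC (C i k)) (hP : 1 ≤ cP)
    (sA : ∀ i ∈ X, S4E N R.1 R.2.1 (QA i) (A i) (ga i) cP)
    (sC : ∀ i ∈ X, L2E N R.1 R.2.2 (QC i) (C i) (ec i)) (hg : ∑ i ∈ X, ga i ≤ GA)
    (he : ∑ i ∈ X, ec i ≤ EC) (hGA : 0 < GA) (hEC : 0 < EC) {w : ℝ}
    (hw : ∑ i ∈ X, ∑ k ∈ Icc 1 N, ∑ m ∈ s i k, (4 ^ k : ℝ)⁻¹ * (W i k m * (W i k m)ᵀ).trace ≤ w)
    {ρ σ κC Z : ℝ} (hρ : 0 < ρ) (hσ : 0 < σ) (hκC : 0 ≤ κC)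
    (hZ : ∀ a e, cA / 2 ^ (a - 1) < σ → ∑ i ∈ X, UW N (s i) cA cC (A i) (C i) (W i) a e ≤ Z)
    (hV : ∀ a e, σ ≤ cA / 2 ^ (a - 1) → ρ * (cA / 2 ^ (a - 1)) < cC / 2 ^ (e - 1) →
      ∑ i ∈ X, VW N (s i) cA cC (A i) (C i) (W i) a e ≤ κC) {LA LC : ℕ}
    (lA : cA / 2 ^ (LA - 1) < σ) (lC : cC / 2 ^ (LC - 1) ≤ ρ * σ) :
    ∑ i ∈ X, ∑ k ∈ Icc 1 N, ∑ m ∈ s i k, |(2 ^ k : ℝ)⁻¹ *
        (W i k m * hd k * bl k (C i k) m.1 m.2.2).trace| ≤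
      6 * √(w * (8800 * cP * max EC (ρ / σ * √(GA * EC)))) * LA + κC * LC + Z := by
  refine lower2X hs hA hC capC (κ := 8800 * cP) (by positivity) hw (fun a e => ?_) hρ hσ hκC hZ hV
    lA lC
  refine (pairX_bal hc hP (fun i hi => (sA i hi).swap) (fun i hi => (sC i hi).swap) hg he hGA hEC
    (lv_pos hA a) (lv_pos hC e)).trans ?_
  rw [lv_sq, lv_one]

end

section labels

variable {N L : ℕ} {R : Pt} {X : Finset ℤ} {c : ℤ → ℕ → ℤ} {A : ℤ → ℕ → ℤ → ℤ → ℝ}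
  {C : ℤ → ℕ → ℤ → ℤ → ℤ → ℝ} {cA cC : ℝ} {s : ℤ → ℕ → Finset Pt}
  {W : ℤ → (k : ℕ) → Pt → Matrix (Ix k) (Ix k) ℝ} {QA QC : ℤ → ℕ → ℤ → ℤ → Prop}
  {ga : ℤ → ℝ} {GA EC cP : ℝ}

/-- **REGION 1 with labels, family** (`L` digits, label on the second variable of `C`),
arbitrary `W`. -/
theorem region1X_lab (hc : ∀ i ∈ X, Pl (c i))
    (hs : ∀ i ∈ X, ∀ k ∈ Icc 1 N, s i k ⊆ bx3 N R k (c i k)) (hA : 0 < cA) (hC : 0 < cC)
    (capC : ∀ i ∈ X, ∀ k ∈ Icc 1 N, ∀ m ∈ s i k, CapR L k m.1 m.2.2 cC (C i k)) (hP : 1 ≤ cP)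
    (sA : ∀ i ∈ X, S4E N R.1 R.2.1 (QA i) (A i) (ga i) cP) (hg : ∑ i ∈ X, ga i ≤ GA)
    (hC0 : ∀ i ∈ X, C i 0 = 0)
    (pC : ∀ i ∈ X, ∀ l ∈ lbs L, Path N R.1 R.2.2 (QC i) (fun k => C i k l))
    (oC : ∑ i ∈ X, ∑ l ∈ lbs L, pwr N R.1 R.2.2 (QC i) (fun k => C i k l) ≤ EC) (hGA : 0 < GA)
    (hEC : 0 < EC) {w : ℝ}
    (hw : ∑ i ∈ X, ∑ k ∈ Icc 1 N, ∑ m ∈ s i k,
      (4 ^ (k + L) : ℝ)⁻¹ * (W i (k + L) m * (W i (k + L) m)ᵀ).trace ≤ w)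
    {ρ σ κC Z : ℝ} (hρ : 0 < ρ) (hσ : 0 < σ) (hκC : 0 ≤ κC)
    (hZ : ∀ a e, cA / 2 ^ (a - 1) < σ → ∑ i ∈ X, UW (N + L) (shs L (s i)) cA cC
      (shF L fun k => dup L (A i k)) (shF L fun k => encR L (C i k)) (W i) a e ≤ Z)
    (hV : ∀ a e, σ ≤ cA / 2 ^ (a - 1) → ρ * (cA / 2 ^ (a - 1)) < cC / 2 ^ (e - 1) →
      ∑ i ∈ X, VW (N + L) (shs L (s i)) cA cC
        (shF L fun k => dup L (A i k)) (shF L fun k => encR L (C i k)) (W i) a e ≤ κC)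
    {LA LC : ℕ} (lA : cA / 2 ^ (LA - 1) < σ) (lC : cC / 2 ^ (LC - 1) ≤ ρ * σ) :
    ∑ i ∈ X, ∑ k ∈ Icc 1 N, ∑ m ∈ s i k, |(2 ^ (k + L) : ℝ)⁻¹ *
        (W i (k + L) m * hd (k + L) * bl (k + L) (encR L (C i k)) m.1 m.2.2).trace| ≤
      6 * √(w * (8800 * cP * (4 ^ L * max EC (ρ / σ * √(GA * EC))))) * LA + κC * LC + Z := by
  have hP0 : 0 ≤ cP := by linarith
  have h := region1X (W := W) (X := X) (fun i hi => shc_pl (L := L) (hc i hi))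
    (fun i hi => shs_sub (L := L) (hs i hi)) hA hC
    (fun i hi => cap_shF (p := fun m => m.1) (q := fun m => m.2.2) fun k hk m hm =>
      cap_encR (capC i hi k hk m hm)) hP (fun i hi => S4E_dup (L := L) hP0 (sA i hi))
    (fun i hi => L2E_encR (hC0 i hi) (pC i hi) le_rfl)
    (GA := 4 ^ L * GA) (EC := 4 ^ L * EC)
    (by rw [← mul_sum]; exact mul_le_mul_of_nonneg_left hg (by positivity))
    (by rw [← mul_sum]; exact mul_le_mul_of_nonneg_left oC (by positivity))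
    (by positivity) (by positivity)
    (w := w) (by
      refine le_trans (le_of_eq ?_) hw
      exact sum_congr rfl fun i _ =>
        sum_shs N L (s i) fun k m => (4 ^ k : ℝ)⁻¹ * (W i k m * (W i k m)ᵀ).trace)
    hρ hσ hκC hZ hV lA lC
  have e2 : ∀ i, ∑ k ∈ Icc 1 (N + L), ∑ m ∈ shs L (s i) k, |(2 ^ k : ℝ)⁻¹ *
      (W i k m * hd k * bl k (shF L (fun k => encR L (C i k)) k) m.1 m.2.2).trace| =
      ∑ k ∈ Icc 1 N, ∑ m ∈ s i k, |(2 ^ (k + L) : ℝ)⁻¹ *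
        (W i (k + L) m * hd (k + L) * bl (k + L) (encR L (C i k)) m.1 m.2.2).trace| := by
    intro i
    rw [sum_shs N L (s i) fun k m => |(2 ^ k : ℝ)⁻¹ *
      (W i k m * hd k * bl k (shF L (fun k => encR L (C i k)) k) m.1 m.2.2).trace|]
    simp only [shF_add]
  simp only [e2] at h
  refine h.trans (le_of_eq ?_)
  have e : √(4 ^ L * GA * (4 ^ L * EC)) = 4 ^ L * √(GA * EC) := sqrt_four_pow L GA EC
  rw [e, mul_max_of_nonneg _ _ (by positivity : (0 : ℝ) ≤ 4 ^ L),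
    show ρ / σ * (4 ^ L * √(GA * EC)) = 4 ^ L * (ρ / σ * √(GA * EC)) by ring]

/-- The same from the data of `H971.EngL`. -/
theorem region1X_fam {DA GC : ℝ} (hc : ∀ i ∈ X, Pl (c i))
    (hs : ∀ i ∈ X, ∀ k ∈ Icc 1 N, s i k ⊆ bx3 N R k (c i k)) (hA : 0 < cA) (hC : 0 < cC)
    (capC : ∀ i ∈ X, ∀ k ∈ Icc 1 N, ∀ m ∈ s i k, CapR L k m.1 m.2.2 cC (C i k)) (hP : 1 ≤ cP)
    (fA : Fam0 N R.1 R.2.1 X QA A cP GA DA) (fC : FamR L N R.1 R.2.2 X QC C cP GC EC)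
    (hGA : 0 < GA) (hEC : 0 < EC) {w : ℝ}
    (hw : ∑ i ∈ X, ∑ k ∈ Icc 1 N, ∑ m ∈ s i k,
      (4 ^ (k + L) : ℝ)⁻¹ * (W i (k + L) m * (W i (k + L) m)ᵀ).trace ≤ w)
    {ρ σ κC Z : ℝ} (hρ : 0 < ρ) (hσ : 0 < σ) (hκC : 0 ≤ κC)
    (hZ : ∀ a e, cA / 2 ^ (a - 1) < σ → ∑ i ∈ X, UW (N + L) (shs L (s i)) cA cC
      (shF L fun k => dup L (A i k)) (shF L fun k => encR L (C i k)) (W i) a e ≤ Z)
    (hV : ∀ a e, σ ≤ cA / 2 ^ (a - 1) → ρ * (cA / 2 ^ (a - 1)) < cC / 2 ^ (e - 1) →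
      ∑ i ∈ X, VW (N + L) (shs L (s i)) cA cC
        (shF L fun k => dup L (A i k)) (shF L fun k => encR L (C i k)) (W i) a e ≤ κC)
    {LA LC : ℕ} (lA : cA / 2 ^ (LA - 1) < σ) (lC : cC / 2 ^ (LC - 1) ≤ ρ * σ) :
    ∑ i ∈ X, ∑ k ∈ Icc 1 N, ∑ m ∈ s i k, |(2 ^ (k + L) : ℝ)⁻¹ *
        (W i (k + L) m * hd (k + L) * bl (k + L) (encR L (C i k)) m.1 m.2.2).trace| ≤
      6 * √(w * (8800 * cP * (4 ^ L * max EC (ρ / σ * √(GA * EC))))) * LA + κC * LC + Z :=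
  region1X_lab hc hs hA hC capC hP (fun i hi => ⟨fA.path i hi, fA.zero i hi, le_rfl, fA.pack i hi⟩)
    fA.own fC.zero fC.path fC.pow hGA hEC hw hρ hσ hκC hZ hV lA lC

end labels

end

end Vale.Agent.P141.H576
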